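import Vale.Agent.Lib.P362.Interface

/-! P362, part QAlg: definitions for the analysis of the search algorithm. -/

namespace P362.QA

/-- the three facts about realizable kernels used in this part -/
structure Facts : Prop where
  tree : PartQTree
  bind : PartQBind
  amp : PartQAmp

/-- probability distributions on a finite type -/
def IsD {R : Type} [Fintype R] (p : R → ℝ) : Prop := (∀ r, 0 ≤ p r) ∧ ∑ r, p r = 1

open Classical in
/-- probability of the event `P` under the weights `p` -/
noncomputable def pr {R : Type} [Fintype R] (p : R → ℝ) (P : R → Prop) : ℝ :=
  ∑ r, if P r then p r else 0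

/-- deterministic kernel -/
def det {V R : Type} [DecidableEq R] (g : (V → Bool) → R) : (V → Bool) → R → ℝ :=
  fun x r => if g x = r then 1 else 0

/-- `j` is not in the leaf set of any listed address -/
def inS {V B A : Type} (leaf : A → B → DT V Bool) {t : ℕ} (rs : Fin t → A) (j : B)
    (x : V → Bool) : Bool :=
  decide (∀ i, (leaf (rs i) j).eval x = false)

/-- the candidate set `S` -/
def cand {V B A : Type} [Fintype B] (leaf : A → B → DT V Bool) {t : ℕ} (rs : Fin t → A)
    (x : V → Bool) : Finset B :=
  Finset.univ.filter (fun j => inS leaf rs j x = true)

end P362.QA
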