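import Vale.Agent.Lib.P362.A.Base

/-! P362, part QAlg: realizable kernels consist of distributions; elementary probability. -/

namespace P362.QA

private theorem sq_eq_dot {ι : Type} [Fintype ι] (w : ι → ℂ) :
    ((∑ p, ‖w p‖ ^ 2 : ℝ) : ℂ) = dotProduct (star w) w := by
  unfold dotProduct
  push_cast
  refine Finset.sum_congr rfl fun p _ => ?_
  rw [Pi.star_apply, ← Complex.conj_mul']
  rfl

private theorem mulVec_norm {ι : Type} [Fintype ι] [DecidableEq ι] {M : Matrix ι ι ℂ}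
    (hM : M ∈ Matrix.unitaryGroup ι ℂ) (v : ι → ℂ) :
    ∑ p, ‖(M.mulVec v) p‖ ^ 2 = ∑ p, ‖v p‖ ^ 2 := by
  have h1 : dotProduct (star (M.mulVec v)) (M.mulVec v) = dotProduct (star v) v := by
    rw [Matrix.star_mulVec, Matrix.dotProduct_mulVec, Matrix.vecMul_vecMul]
    have h2 : M.conjTranspose * M = 1 := Matrix.mem_unitaryGroup_iff'.1 hM
    rw [h2, Matrix.vecMul_one]
  have h3 : ((∑ p, ‖(M.mulVec v) p‖ ^ 2 : ℝ) : ℂ) = ((∑ p, ‖v p‖ ^ 2 : ℝ) : ℂ) := by
    rw [sq_eq_dot, sq_eq_dot, h1]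
  exact Complex.ofReal_injective h3

private theorem oracle_norm {V W : Type} [Fintype V] [Fintype W] (x : V → Bool)
    (ψ : V × Bool × W → ℂ) : ∑ p, ‖oracle x ψ p‖ ^ 2 = ∑ p, ‖ψ p‖ ^ 2 := by
  have hinv : Function.Involutive
      (fun p : V × Bool × W => ((p.1, xor p.2.1 (x p.1), p.2.2) : V × Bool × W)) := by
    rintro ⟨v, b, w⟩
    simp
  exact Equiv.sum_comp hinv.toPerm (fun p => ‖ψ p‖ ^ 2)

private theorem state_norm {V : Type} [Fintype V] [DecidableEq V] {R : Type} {T : ℕ}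
    (A : QAlg V R T) (x : V → Bool) (t : ℕ) : ∑ p, ‖A.state x t p‖ ^ 2 = 1 := by
  induction t with
  | zero =>
    change ∑ p, ‖((A.U 0).mulVec A.init) p‖ ^ 2 = 1
    rw [mulVec_norm (A.unitary 0), A.init_norm]
  | succ t ih =>
    change ∑ p, ‖((A.U (Fin.ofNat (T + 1) (t + 1))).mulVec (oracle x (A.state x t))) p‖ ^ 2 = 1
    rw [mulVec_norm (A.unitary _), oracle_norm, ih]

/-- Proof: `A.U t` is unitary, so it preserves `∑ ‖ψ p‖ ^ 2`; the oracle permutes the basis
(`p ↦ (p.1, xor p.2.1 (x p.1), p.2.2)` is an involution). Hence `∑ p, ‖A.state x t p‖ ^ 2 = 1`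
by induction on `t`, and `∑ r, prob r = ∑ p, ‖state p‖ ^ 2` by exchanging sums. -/
theorem real_isD {V : Type} [Fintype V] [DecidableEq V] {R : Type} [Fintype R] [DecidableEq R]
    {q : ℕ} {μ : (V → Bool) → R → ℝ} (h : Realizable q μ) (x : V → Bool) : IsD (μ x) := by
  obtain ⟨T, -, A, hA⟩ := h
  constructor
  · intro r
    rw [← hA x r]
    refine Finset.sum_nonneg fun p _ => ?_
    split_ifs
    · positivity
    · exact le_rfl
  · have h1 : ∑ r, μ x r = ∑ r, A.prob x r := Finset.sum_congr rfl fun r _ => (hA x r).symm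
    rw [h1]
    unfold QAlg.prob
    rw [Finset.sum_comm, ← state_norm A x T]
    refine Finset.sum_congr rfl fun p _ => ?_
    rw [Finset.sum_ite_eq, if_pos (Finset.mem_univ _)]

theorem real_mono {V : Type} [Fintype V] [DecidableEq V] {R : Type} [DecidableEq R]
    {q q' : ℕ} (hq : q ≤ q') {μ : (V → Bool) → R → ℝ} (h : Realizable q μ) :
    Realizable q' μ := by
  obtain ⟨T, hT, A, hA⟩ := h
  exact ⟨T, hT.trans hq, A, hA⟩

end P362.QA
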