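import Vale.Agent.Lib.P362.A.Base
import Vale.Agent.Lib.P362.A.Dist

/-! P362, part QAlg: deterministic kernels. -/

namespace P362.QA

variable {V : Type} [Fintype V] [DecidableEq V] [Nonempty V]

theorem real_pure (F : Facts) {R : Type} [Fintype R] [DecidableEq R] (p : R → ℝ)
    (hp : IsD p) (q : ℕ) : Realizable (V := V) q (fun _ => p) := by
  exact real_mono (Nat.zero_le q) (F.tree.1 V R p hp.1 hp.2)

theorem real_det_tree (F : Facts) {R : Type} [Fintype R] [DecidableEq R] (t : DT V R) {q : ℕ}
    (h : t.depth ≤ q) : Realizable q (det t.eval) := by
  exact real_mono h (F.tree.2 V R t)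

theorem real_det_const (F : Facts) {R : Type} [Fintype R] [DecidableEq R] (r : R) (q : ℕ) :
    Realizable (V := V) q (det (fun _ => r)) := by
  exact real_det_tree F (DT.leaf r) (Nat.zero_le q)

theorem real_det_bind (F : Facts) {R S : Type} [Fintype R] [DecidableEq R] [Fintype S]
    [DecidableEq S] {q1 q2 : ℕ} {g : (V → Bool) → R} {h : R → (V → Bool) → S}
    (hg : Realizable q1 (det g)) (hh : ∀ r, Realizable q2 (det (h r))) :
    Realizable (q1 + q2) (det (fun x => h (g x) x)) := by
  have h1 := F.bind V R S q1 q2 (det g) (fun r => det (h r)) hg hh
  have e : (fun x s => ∑ r, det g x r * det (h r) x s) = det (fun x => h (g x) x) := by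
    funext x s
    unfold det
    rw [Finset.sum_eq_single (g x)]
    · rw [if_pos rfl, one_mul]
    · intro r _ hr
      rw [if_neg (Ne.symm hr), zero_mul]
    · intro hx
      exact absurd (Finset.mem_univ _) hx
  rw [e] at h1
  exact h1

/-- conjunction of `n` deterministic tests: induction on `n` -/
theorem real_det_all (F : Facts) {n q : ℕ} {g : Fin n → (V → Bool) → Bool}
    (hg : ∀ i, Realizable q (det (g i))) :
    Realizable (n * q) (det (fun x => decide (∀ i, g i x = true))) := by
  induction n with
  | zero =>
    have e : (fun x => decide (∀ i : Fin 0, g i x = true)) = fun _ : V → Bool => true := by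
      funext x
      exact decide_eq_true fun i => i.elim0
    rw [e]
    exact real_det_const F true _
  | succ n ih =>
    have h1 := ih (g := fun i => g i.castSucc) fun i => hg i.castSucc
    have h2 : ∀ r : Bool, Realizable q (det (fun x => r && g (Fin.last n) x)) := by
      intro r
      cases r with
      | false =>
        have e : (fun x => false && g (Fin.last n) x) = fun _ : V → Bool => false := by
          funext x
          rfl
        rw [e]
        exact real_det_const F false q
      | true =>
        have e : (fun x => true && g (Fin.last n) x) = g (Fin.last n) := by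
          funext x
          rfl
        rw [e]
        exact hg _
    have h3 := real_det_bind F h1 h2
    have e : (fun x => decide (∀ i : Fin n, g i.castSucc x = true) && g (Fin.last n) x) =
        fun x => decide (∀ i : Fin (n + 1), g i x = true) := by
      funext x
      rw [Bool.eq_iff_iff, Bool.and_eq_true, decide_eq_true_eq, decide_eq_true_eq,
        Fin.forall_fin_succ']
    rw [e] at h3
    rw [Nat.succ_mul]
    exact h3

/-- image of a kernel under a map, no further queries -/
theorem real_map (F : Facts) {R S : Type} [Fintype R] [DecidableEq R] [Fintype S]
    [DecidableEq S] {q : ℕ} {μ : (V → Bool) → R → ℝ} (hμ : Realizable q μ) (f : R → S) :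
    Realizable q (fun x s => ∑ r, μ x r * (if f r = s then 1 else 0)) := by
  have h1 := F.bind V R S q 0 μ (fun r => det (fun _ => f r)) hμ
    fun r => real_det_const F (f r) 0
  exact h1

/-- membership test for the candidate set -/
theorem real_inS (F : Facts) {B A : Type} (leaf : A → B → DT V Bool) {p t : ℕ}
    (hp : ∀ ρ j, (leaf ρ j).depth ≤ p) (rs : Fin t → A) (j : B) :
    Realizable (t * p) (det (inS leaf rs j)) := by
  have h1 : ∀ i, Realizable p (det (fun x => !(leaf (rs i) j).eval x)) := by
    intro i
    have h2 := real_det_bind F (real_det_tree F (leaf (rs i) j) (hp _ _))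
      (h := fun (r : Bool) (_ : V → Bool) => !r) (fun r => real_det_const F (!r) 0)
    exact h2
  have h3 := real_det_all F h1
  have e : (fun x => decide (∀ i, (!(leaf (rs i) j).eval x) = true)) = inS leaf rs j := by
    funext x
    unfold inS
    rw [Bool.eq_iff_iff, decide_eq_true_eq, decide_eq_true_eq]
    exact forall_congr' fun i => by rw [Bool.not_eq_true', ]
  rw [e] at h3
  exact h3

/-- test of `(b, ρ)` against a list of samples -/
theorem real_test (F : Facts) {B A : Type} [DecidableEq B] (leaf : A → B → DT V Bool) {p n : ℕ}
    (hp : ∀ ρ j, (leaf ρ j).depth ≤ p) (s : Fin n → Option B) (b : B) (ρ : A) :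
    Realizable (n * p) (det (fun x => decide (∀ i, ∀ j, s i = some j →
      (j = b ∨ (leaf ρ j).eval x = true)))) := by
  have h1 : ∀ i, Realizable p (det (fun x => decide (∀ j, s i = some j →
      (j = b ∨ (leaf ρ j).eval x = true)))) := by
    intro i
    cases hs : s i with
    | none =>
      have e : (fun x : V → Bool => decide (∀ j, (none : Option B) = some j →
          (j = b ∨ (leaf ρ j).eval x = true))) = fun _ => true := by
        funext x
        exact decide_eq_true fun j hj => by cases hj
      rw [e]
      exact real_det_const F true p
    | some j =>
      by_cases hj : j = b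
      · have e : (fun x : V → Bool => decide (∀ j', some j = some j' →
            (j' = b ∨ (leaf ρ j').eval x = true))) = fun _ => true := by
          funext x
          refine decide_eq_true fun j' hj' => Or.inl ?_
          rw [← Option.some.inj hj']
          exact hj
        rw [e]
        exact real_det_const F true p
      · have e : (fun x : V → Bool => decide (∀ j', some j = some j' →
            (j' = b ∨ (leaf ρ j').eval x = true))) = (leaf ρ j).eval := by
          funext x
          rw [Bool.eq_iff_iff, decide_eq_true_eq]
          constructor
          · intro h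
            rcases h j rfl with h2 | h2
            · exact absurd h2 hj
            · exact h2
          · intro h j' hj'
            rw [← Option.some.inj hj']
            exact Or.inr h
        rw [e]
        exact real_det_tree F (leaf ρ j) (hp _ _)
  have h3 := real_det_all F h1
  have e : (fun x => decide (∀ i, (decide (∀ j, s i = some j →
      (j = b ∨ (leaf ρ j).eval x = true))) = true)) =
      fun x => decide (∀ i, ∀ j, s i = some j → (j = b ∨ (leaf ρ j).eval x = true)) := by
    funext x
    rw [Bool.eq_iff_iff, decide_eq_true_eq, decide_eq_true_eq]
    exact forall_congr' fun i => by rw [decide_eq_true_eq]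
  rw [e] at h3
  exact h3

end P362.QA
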