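import Vale.Agent.Lib.P362.A.Pr

/-! P362, part QAlg: random samples represent the candidate set. -/

namespace P362.QA

private theorem sample_le {B : Type} [Fintype B] [DecidableEq B] (S : Finset B)
    {ν : Option B → ℝ} (hν : IsD ν) {c : ℝ} (hc : ∀ j, ν (some j) = if j ∈ S then c else 0)
    (hn : ν none ≤ 1 / 2) (L : Finset B) (h : 4 * (S ∩ L).card < 3 * S.card) :
    pr ν (fun o => ∀ j, o = some j → j ∈ L) ≤ 7 / 8 := by
  classical
  have hS : 0 < S.card := by omega
  obtain ⟨j0, hj0⟩ := Finset.card_pos.1 hS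
  have hc0 : 0 ≤ c := by
    have h1 := hν.1 (some j0)
    rw [hc, if_pos hj0] at h1
    exact h1
  have hsum : ν none + c * S.card = 1 := by
    rw [← hν.2, Fintype.sum_option]
    congr 1
    simp only [hc]
    rw [← Finset.sum_filter, Finset.filter_mem_eq_inter, Finset.univ_inter, Finset.sum_const,
      nsmul_eq_mul, mul_comm]
  have hpr : pr ν (fun o => ∀ j, o = some j → j ∈ L) = ν none + c * (S ∩ L).card := by
    unfold pr
    rw [Fintype.sum_option]
    congr 1
    · simp
    · have e : ∀ j : B, (if (∀ j', some j = some j' → j' ∈ L) then ν (some j) else 0)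
          = if j ∈ S ∩ L then c else 0 := by
        intro j
        rw [hc]
        by_cases h1 : j ∈ L
        · have h2 : ∀ j', some j = some j' → j' ∈ L := by
            intro j' hj'
            cases hj'
            exact h1
          rw [if_pos h2]
          by_cases h3 : j ∈ S
          · rw [if_pos h3, if_pos (Finset.mem_inter.2 ⟨h3, h1⟩)]
          · rw [if_neg h3, if_neg (fun h4 => h3 (Finset.mem_inter.1 h4).1)]
        · have h2 : ¬ ∀ j', some j = some j' → j' ∈ L := fun h3 => h1 (h3 j rfl)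
          rw [if_neg h2, if_neg (fun h4 => h1 (Finset.mem_inter.1 h4).2)]
      trans ∑ j : B, if j ∈ S ∩ L then c else 0
      · refine Finset.sum_congr rfl fun j _ => ?_
        convert e j
      · rw [← Finset.sum_filter, Finset.filter_mem_eq_inter, Finset.univ_inter, Finset.sum_const,
          nsmul_eq_mul, mul_comm]
  rw [hpr]
  have h4 : (4 : ℝ) * (S ∩ L).card ≤ 3 * S.card := by exact_mod_cast h.le
  have h5 : c * (4 * (S ∩ L).card) ≤ c * (3 * S.card) := mul_le_mul_of_nonneg_left h4 hc0
  linarith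

/-- For fixed `i : ι` with `4 |S ∩ T i| < 3 |S|`: one sample passes (is `none` or in `T i`) with
probability `1 - c |S \ T i| ≤ 1 - c |S| / 4 = 1 - (1 - ν none) / 4 ≤ 7/8`; so all `n` samples
pass with probability at most `(7/8)^n` (`pr_prod_forall`); union bound over `ι`
(`pr_exists_le`). -/
theorem good_samples {B ι : Type} [Fintype B] [DecidableEq B] [Fintype ι] (S : Finset B)
    {ν : Option B → ℝ} (hν : IsD ν) {c : ℝ} (hc : ∀ j, ν (some j) = if j ∈ S then c else 0)
    (hn : ν none ≤ 1 / 2) (T : ι → Finset B) (n : ℕ) :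
    pr (fun s : Fin n → Option B => ∏ i, ν (s i)) (fun s => ∃ i, 4 * (S ∩ T i).card < 3 * S.card ∧
      ∀ a j, s a = some j → j ∈ T i) ≤ Fintype.card ι * (7 / 8) ^ n := by
  classical
  have hp : ∀ s : Fin n → Option B, 0 ≤ ∏ i, ν (s i) := fun s =>
    Finset.prod_nonneg fun i _ => hν.1 _
  refine (pr_exists_le hp (fun (i : ι) (s : Fin n → Option B) =>
    4 * (S ∩ T i).card < 3 * S.card ∧ ∀ a j, s a = some j → j ∈ T i)).trans ?_
  have hb : ∀ i : ι, pr (fun s : Fin n → Option B => ∏ i, ν (s i))
      (fun s => 4 * (S ∩ T i).card < 3 * S.card ∧ ∀ a j, s a = some j → j ∈ T i)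
      ≤ (7 / 8) ^ n := by
    intro i
    by_cases h : 4 * (S ∩ T i).card < 3 * S.card
    · refine (pr_mono hp (Q := fun s => ∀ a, (fun o : Option B => ∀ j, o = some j → j ∈ T i) (s a))
        (fun s hs => hs.2)).trans ?_
      rw [pr_prod_forall ν n (fun o => ∀ j, o = some j → j ∈ T i)]
      exact pow_le_pow_left₀ (pr_nonneg hν.1 _) (sample_le S hν hc hn (T i) h) n
    · have e : pr (fun s : Fin n → Option B => ∏ i, ν (s i))
          (fun s => 4 * (S ∩ T i).card < 3 * S.card ∧ ∀ a j, s a = some j → j ∈ T i) = 0 := by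
        unfold pr
        apply Finset.sum_eq_zero
        intro s _
        rw [if_neg (fun hs => h hs.1)]
      rw [e]
      positivity
  calc ∑ i, pr (fun s : Fin n → Option B => ∏ i, ν (s i))
        (fun s => 4 * (S ∩ T i).card < 3 * S.card ∧ ∀ a j, s a = some j → j ∈ T i)
      ≤ ∑ _i : ι, (7 / 8 : ℝ) ^ n := Finset.sum_le_sum fun i _ => hb i
    _ = Fintype.card ι * (7 / 8) ^ n := by
        rw [Finset.sum_const, nsmul_eq_mul, Finset.card_univ]

/-- `|S ∩ ({b} ∪ L)| ≤ 1 + |S ∩ L|` -/
theorem halve {B : Type} [DecidableEq B] (S L : Finset B) (b : B) (h4 : 4 ≤ S.card)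
    (h : 3 * S.card ≤ 4 * (S ∩ (insert b L)).card) : 2 * (S \ L).card ≤ S.card := by
  have h1 : (S ∩ (insert b L)).card ≤ 1 + (S ∩ L).card := by
    have h2 : S ∩ insert b L ⊆ insert b (S ∩ L) := by
      intro x hx
      rw [Finset.mem_inter, Finset.mem_insert] at hx
      rw [Finset.mem_insert, Finset.mem_inter]
      tauto
    have h3 := (Finset.card_le_card h2).trans (Finset.card_insert_le _ _)
    omega
  have h5 : (S \ L).card + (S ∩ L).card = S.card := Finset.card_sdiff_add_card_inter S L
  omega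

end P362.QA
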