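import Vale.Agent.Lib.P362.A.Det

/-! P362, part QAlg: independent repetitions of a kernel. -/

namespace P362.QA

variable {V : Type} [Fintype V] [DecidableEq V] [Nonempty V]

/-- induction on `n`: run `μ`, then the `n`-fold kernel, output `Fin.cons r v` -/
theorem iid (F : Facts) {R : Type} [Fintype R] [DecidableEq R] {q : ℕ}
    {μ : (V → Bool) → R → ℝ} (hμ : Realizable q μ) (n : ℕ) :
    Realizable (n * q) (fun x (v : Fin n → R) => ∏ i, μ x (v i)) := by
  induction n with
  | zero =>
    rw [Nat.zero_mul]
    have h := F.tree.1 V (Fin 0 → R) (fun _ => 1) (fun _ => zero_le_one) (by simp)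
    simpa using h
  | succ n ih =>
    have h1 : ∀ r : R, Realizable (n * q) (fun (x : V → Bool) (v : Fin (n + 1) → R) =>
        ∑ w : Fin n → R, (∏ i, μ x (w i)) * (if (Fin.cons r w : Fin (n + 1) → R) = v then 1 else 0)) :=
      fun r => real_map F ih (fun w => (Fin.cons r w : Fin (n + 1) → R))
    have h2 := F.bind V R (Fin (n + 1) → R) q (n * q) μ _ hμ h1
    rw [Nat.succ_mul, Nat.add_comm (n * q) q]
    convert h2 using 1
    funext x v
    rw [Finset.sum_eq_single (v 0)]
    · rw [Fin.prod_univ_succ]
      congr 1
      rw [Finset.sum_eq_single (Fin.tail v)]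
      · rw [if_pos (Fin.cons_self_tail v), mul_one]
        rfl
      · intro w _ hw
        rw [if_neg, mul_zero]
        intro h
        apply hw
        rw [← h, Fin.tail_cons]
      · intro h
        exact absurd (Finset.mem_univ _) h
    · intro r _ hr
      rw [Finset.sum_eq_zero, mul_zero]
      intro w _
      rw [if_neg, mul_zero]
      intro h
      apply hr
      rw [← h, Fin.cons_zero]
    · intro h
      exact absurd (Finset.mem_univ _) h

/-- OR of `n` independent runs (image of `iid` under `v ↦ decide (∃ i, v i = true)`); the value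
at `false` is `(μ x false) ^ n`, and `1 - (1 - p) ^ n ≤ n * p` -/
theorem orK (F : Facts) {q : ℕ} {μ : (V → Bool) → Bool → ℝ} (hμ : Realizable q μ) (n : ℕ) :
    ∃ ν : (V → Bool) → Bool → ℝ, Realizable (n * q) ν ∧
      ∀ x, ν x false = μ x false ^ n ∧ ν x true ≤ n * μ x true := by
  refine ⟨_, real_map F (iid F hμ n) (fun v => decide (∃ i, v i = true)), fun x => ?_⟩
  have hfalse : ∑ v : Fin n → Bool, (∏ i, μ x (v i)) *
      (if decide (∃ i, v i = true) = false then (1 : ℝ) else 0) = μ x false ^ n := by
    rw [Finset.sum_eq_single (fun _ => false)]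
    · simp
    · intro v _ hv
      rw [if_neg, mul_zero]
      intro h
      apply hv
      funext i
      have h' : ¬ ∃ i, v i = true := of_decide_eq_false h
      push Not at h'
      simpa using h' i
    · intro h
      exact absurd (Finset.mem_univ _) h
  refine ⟨hfalse, ?_⟩
  have hD : IsD (μ x) := real_isD hμ x
  have htot : ∑ v : Fin n → Bool, (∏ i, μ x (v i)) *
      (if decide (∃ i, v i = true) = true then (1 : ℝ) else 0) +
      ∑ v : Fin n → Bool, (∏ i, μ x (v i)) *
      (if decide (∃ i, v i = true) = false then (1 : ℝ) else 0) = 1 := by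
    rw [← Finset.sum_add_distrib]
    have h1 : ∑ v : Fin n → Bool, ∏ i, μ x (v i) = 1 := by
      have h2 := Finset.prod_univ_sum (fun _ : Fin n => (Finset.univ : Finset Bool))
        (fun _ b => μ x b)
      rw [Fintype.piFinset_univ] at h2
      rw [← h2]
      simp only [hD.2, Finset.prod_const_one]
    refine Eq.trans ?_ h1
    refine Finset.sum_congr rfl fun v _ => ?_
    rw [← mul_add]
    by_cases h : ∃ i, v i = true
    · simp [h]
    · simp [h]
  have hsum : μ x true + μ x false = 1 := by
    have := hD.2
    simpa using this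
  have hb : 1 + (n : ℝ) * (-μ x true) ≤ (1 + (-μ x true)) ^ n := by
    apply one_add_mul_le_pow
    have := hD.1 false
    linarith
  have he : (1 : ℝ) + (-μ x true) = μ x false := by linarith
  rw [he] at hb
  have : ∑ v : Fin n → Bool, (∏ i, μ x (v i)) *
      (if decide (∃ i, v i = true) = true then (1 : ℝ) else 0) = 1 - μ x false ^ n := by
    rw [hfalse] at htot
    linarith
  change ∑ v : Fin n → Bool, (∏ i, μ x (v i)) *
      (if decide (∃ i, v i = true) = true then (1 : ℝ) else 0) ≤ _
  rw [this]
  linarith

end P362.QA
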