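import Mathlib

/-! P362, part QAlg: numerical lemmas. -/

namespace P362.QA

/-- with `L = log₂ b + log₂ a + 2`, `n = 6 (2 L + 4)`, `K = 3 (L + 4)`, `r = log₂ b + 1 ≤ L`:
`b a < 2^L`, `(7/8)^6 ≤ 1/2`, `(3/4)^3 ≤ 1/2`, `L ≤ 2^L`; both terms are at most `1/16`. -/
theorem num_fail (b a L : ℕ) (hL : L = Nat.log 2 b + Nat.log 2 a + 2) :
    ((Nat.log 2 b + 1 : ℕ) : ℝ) * (((b : ℝ) * a) * (7 / 8) ^ (6 * (2 * L + 4)) +
      (3 / 4) ^ (3 * (L + 4))) ≤ 1 / 8 := by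
  have hr : ((Nat.log 2 b + 1 : ℕ) : ℝ) ≤ (2 : ℝ) ^ L := by
    have h1 : Nat.log 2 b + 1 ≤ L := by omega
    have h2 : L ≤ 2 ^ L := Nat.lt_two_pow_self.le
    calc ((Nat.log 2 b + 1 : ℕ) : ℝ) ≤ ((2 ^ L : ℕ) : ℝ) := by exact_mod_cast h1.trans h2
      _ = (2 : ℝ) ^ L := by push_cast; rfl
  have hba : (b : ℝ) * a ≤ (2 : ℝ) ^ L := by
    have h1 : b ≤ 2 ^ (Nat.log 2 b + 1) := (Nat.lt_pow_succ_log_self (by norm_num) b).le
    have h2 : a ≤ 2 ^ (Nat.log 2 a + 1) := (Nat.lt_pow_succ_log_self (by norm_num) a).le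
    have h3 : b * a ≤ 2 ^ L := by
      calc b * a ≤ 2 ^ (Nat.log 2 b + 1) * 2 ^ (Nat.log 2 a + 1) := Nat.mul_le_mul h1 h2
        _ = 2 ^ L := by rw [← pow_add]; congr 1; omega
    exact_mod_cast h3
  have h7 : ((7 : ℝ) / 8) ^ (6 * (2 * L + 4)) ≤ (1 / 2) ^ (2 * L + 4) := by
    rw [pow_mul]
    exact pow_le_pow_left₀ (by positivity) (by norm_num) _
  have h3 : ((3 : ℝ) / 4) ^ (3 * (L + 4)) ≤ (1 / 2) ^ (L + 4) := by
    rw [pow_mul]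
    exact pow_le_pow_left₀ (by positivity) (by norm_num) _
  have hp : (0 : ℝ) < (2 : ℝ) ^ L := by positivity
  have e1 : ((1 : ℝ) / 2) ^ (2 * L + 4) = ((2 : ℝ) ^ L)⁻¹ * ((2 : ℝ) ^ L)⁻¹ / 16 := by
    rw [one_div, inv_pow, pow_add, pow_mul', sq, mul_inv, mul_inv]; norm_num [div_eq_mul_inv]
  have e2 : ((1 : ℝ) / 2) ^ (L + 4) = ((2 : ℝ) ^ L)⁻¹ / 16 := by
    rw [one_div, inv_pow, pow_add, mul_inv]; norm_num [div_eq_mul_inv]
  have t1 : ((b : ℝ) * a) * (7 / 8) ^ (6 * (2 * L + 4)) ≤ ((2 : ℝ) ^ L)⁻¹ / 16 := by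
    calc ((b : ℝ) * a) * (7 / 8) ^ (6 * (2 * L + 4))
        ≤ (2 : ℝ) ^ L * (((2 : ℝ) ^ L)⁻¹ * ((2 : ℝ) ^ L)⁻¹ / 16) := by
          rw [← e1]
          exact mul_le_mul hba h7 (by positivity) (by positivity)
      _ = ((2 : ℝ) ^ L)⁻¹ / 16 := by field_simp
  calc ((Nat.log 2 b + 1 : ℕ) : ℝ) * (((b : ℝ) * a) * (7 / 8) ^ (6 * (2 * L + 4)) +
      (3 / 4) ^ (3 * (L + 4)))
      ≤ (2 : ℝ) ^ L * (((2 : ℝ) ^ L)⁻¹ / 16 + ((2 : ℝ) ^ L)⁻¹ / 16) := by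
        apply mul_le_mul hr _ (by positivity) (by positivity)
        rw [e2] at h3
        exact add_le_add t1 h3
    _ = 1 / 8 := by field_simp; norm_num

/-- `1 - 1/12 = 11/12`, `(11/12)^24 ≤ 1/8` -/
theorem num_try : ((11 : ℝ) / 12) ^ 24 ≤ 1 / 8 := by
  norm_num

/-- cost: `s = sqrt (card B)`, `c = sqrt (card Ch)`, `L ≥ 2`, `r ≤ L` -/
theorem num_cost (L r s c qd p h : ℕ) (hL : 2 ≤ L) (hr : r ≤ L) :
    r * ((6 * (2 * L + 4)) * (9 * (s + 1) * (r * p)) +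
      (3 * (L + 4)) * (5 * (s + 1) * (qd + (6 * (2 * L + 4)) * p))) +
      24 * (9 * (s + 1) * (r * p) + (qd + (h + 48 * (c + 1) * p))) ≤
      10000 * L ^ 6 * ((s + 1) * (qd + p + 1) + (c + 1) * (p + 1) + h) := by
  have h1 : 6 * (2 * L + 4) ≤ 24 * L := by omega
  have h2 : 3 * (L + 4) ≤ 9 * L := by omega
  have hL1 : 1 ≤ L := by omega
  have hL3 : L ^ 3 ≤ L ^ 6 := Nat.pow_le_pow_right hL1 (by norm_num)
  have hL2 : L ^ 2 ≤ L ^ 6 := Nat.pow_le_pow_right hL1 (by norm_num)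
  have hL01 : L ≤ L ^ 6 := by calc L = L ^ 1 := (pow_one L).symm
                                _ ≤ L ^ 6 := Nat.pow_le_pow_right hL1 (by norm_num)
  have hL0 : 1 ≤ L ^ 6 := Nat.one_le_pow _ _ hL1
  have hL4 : L ^ 4 ≤ L ^ 6 := Nat.pow_le_pow_right hL1 (by norm_num)
  calc r * ((6 * (2 * L + 4)) * (9 * (s + 1) * (r * p)) +
      (3 * (L + 4)) * (5 * (s + 1) * (qd + (6 * (2 * L + 4)) * p))) +
      24 * (9 * (s + 1) * (r * p) + (qd + (h + 48 * (c + 1) * p)))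
      ≤ L * ((24 * L) * (9 * (s + 1) * (L * p)) +
      (9 * L) * (5 * (s + 1) * (qd + (24 * L) * p))) +
      24 * (9 * (s + 1) * (L * p) + (qd + (h + 48 * (c + 1) * p))) := by gcongr
    _ = 1296 * (L ^ 3 * ((s + 1) * p)) + 45 * (L ^ 2 * ((s + 1) * qd)) +
        216 * (L * ((s + 1) * p)) + 24 * qd + 24 * h + 1152 * ((c + 1) * p) := by ring
    _ ≤ 1296 * (L ^ 6 * ((s + 1) * p)) + 45 * (L ^ 6 * ((s + 1) * qd)) +
        216 * (L ^ 6 * ((s + 1) * p)) + 24 * (L ^ 6 * ((s + 1) * qd)) + 24 * (L ^ 6 * h) +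
          1152 * (L ^ 6 * ((c + 1) * p)) := by
        have a1 : qd ≤ L ^ 6 * ((s + 1) * qd) := by
          calc qd = 1 * (1 * qd) := by ring
            _ ≤ L ^ 6 * ((s + 1) * qd) := by gcongr; omega
        have a2 : h ≤ L ^ 6 * h := by
          calc h = 1 * h := by ring
            _ ≤ L ^ 6 * h := by gcongr
        have a3 : (c + 1) * p ≤ L ^ 6 * ((c + 1) * p) := by
          calc (c + 1) * p = 1 * ((c + 1) * p) := by ring
            _ ≤ L ^ 6 * ((c + 1) * p) := by gcongr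
        gcongr
    _ = L ^ 6 * (1512 * ((s + 1) * p) + 69 * ((s + 1) * qd) + 24 * h + 1152 * ((c + 1) * p)) := by
        ring
    _ ≤ L ^ 6 * (10000 * ((s + 1) * p) + 10000 * ((s + 1) * qd) + 10000 * (s + 1) + 10000 * h +
          10000 * ((c + 1) * p) + 10000 * (c + 1)) := by
        apply Nat.mul_le_mul_left
        nlinarith [Nat.zero_le ((s + 1) * p), Nat.zero_le ((s + 1) * qd), Nat.zero_le (s + 1),
          Nat.zero_le h, Nat.zero_le ((c + 1) * p), Nat.zero_le (c + 1)]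
    _ = 10000 * L ^ 6 * ((s + 1) * (qd + p + 1) + (c + 1) * (p + 1) + h) := by ring

end P362.QA
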