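import Vale.Agent.Lib.P362.A.Base

/-! P362, part QAlg: elementary probability on finite types. -/

namespace P362.QA

theorem pr_nonneg {R : Type} [Fintype R] {p : R → ℝ} (hp : ∀ r, 0 ≤ p r) (P : R → Prop) :
    0 ≤ pr p P := by
  unfold pr
  refine Finset.sum_nonneg fun r _ => ?_
  split_ifs
  · exact hp r
  · exact le_rfl

theorem pr_mono {R : Type} [Fintype R] {p : R → ℝ} (hp : ∀ r, 0 ≤ p r) {P Q : R → Prop}
    (h : ∀ r, P r → Q r) : pr p P ≤ pr p Q := by
  unfold pr
  refine Finset.sum_le_sum fun r _ => ?_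
  by_cases h1 : P r
  · rw [if_pos h1, if_pos (h r h1)]
  · rw [if_neg h1]
    split_ifs
    · exact hp r
    · exact le_rfl

theorem pr_le_one {R : Type} [Fintype R] {p : R → ℝ} (hp : IsD p) (P : R → Prop) :
    pr p P ≤ 1 := by
  unfold pr
  rw [← hp.2]
  refine Finset.sum_le_sum fun r _ => ?_
  split_ifs
  · exact le_rfl
  · exact hp.1 r

theorem pr_not {R : Type} [Fintype R] {p : R → ℝ} (hp : IsD p) (P : R → Prop) :
    pr p (fun r => ¬ P r) = 1 - pr p P := by
  unfold pr
  rw [← hp.2, ← Finset.sum_sub_distrib]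
  refine Finset.sum_congr rfl fun r _ => ?_
  by_cases h1 : P r
  · rw [if_pos h1, if_neg (not_not.2 h1), sub_self]
  · rw [if_neg h1, if_pos h1, sub_zero]

theorem pr_or_le {R : Type} [Fintype R] {p : R → ℝ} (hp : ∀ r, 0 ≤ p r) (P Q : R → Prop) :
    pr p (fun r => P r ∨ Q r) ≤ pr p P + pr p Q := by
  unfold pr
  rw [← Finset.sum_add_distrib]
  refine Finset.sum_le_sum fun r _ => ?_
  have h0 := hp r
  by_cases h1 : P r
  · rw [if_pos (Or.inl h1), if_pos h1]
    split_ifs
    · linarith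
    · linarith
  · by_cases h2 : Q r
    · rw [if_pos (Or.inr h2), if_neg h1, if_pos h2, zero_add]
    · rw [if_neg (fun h => h.elim h1 h2), if_neg h1, if_neg h2, zero_add]

/-- single outcomes -/
theorem le_pr {R : Type} [Fintype R] {p : R → ℝ} (hp : ∀ r, 0 ≤ p r) {P : R → Prop} (r : R)
    (h : P r) : p r ≤ pr p P := by
  classical
  unfold pr
  refine le_trans (le_of_eq (if_pos h).symm)
    (Finset.single_le_sum (f := fun r => if P r then p r else 0) (fun s _ => ?_)
      (Finset.mem_univ r))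
  change 0 ≤ if P s then p s else 0
  split_ifs
  · exact hp s
  · exact le_rfl

/-- union bound over a finite family -/
theorem pr_exists_le {R ι : Type} [Fintype R] [Fintype ι] {p : R → ℝ} (hp : ∀ r, 0 ≤ p r)
    (P : ι → R → Prop) : pr p (fun r => ∃ i, P i r) ≤ ∑ i, pr p (P i) := by
  classical
  unfold pr
  rw [Finset.sum_comm]
  refine Finset.sum_le_sum fun r _ => ?_
  have h0 : ∀ i ∈ (Finset.univ : Finset ι), 0 ≤ if P i r then p r else 0 := by
    intro i _
    split_ifs
    · exact hp r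
    · exact le_rfl
  by_cases h : ∃ i, P i r
  · rw [if_pos h]
    obtain ⟨i, hi⟩ := h
    refine le_trans (le_of_eq (if_pos hi : (if P i r then p r else 0) = p r).symm) ?_
    convert Finset.single_le_sum h0 (Finset.mem_univ i)
  · rw [if_neg h]
    convert Finset.sum_nonneg h0

theorem pr_bind {R S : Type} [Fintype R] [Fintype S] (p : R → ℝ) (ν : R → S → ℝ)
    (Q : S → Prop) : pr (fun s => ∑ r, p r * ν r s) Q = ∑ r, p r * pr (ν r) Q := by
  unfold pr
  simp only [Finset.mul_sum]
  rw [Finset.sum_comm]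
  refine Finset.sum_congr rfl fun s _ => ?_
  split_ifs
  · rfl
  · simp

theorem isD_bind {R S : Type} [Fintype R] [Fintype S] {p : R → ℝ} {ν : R → S → ℝ}
    (hp : IsD p) (hν : ∀ r, IsD (ν r)) : IsD (fun s => ∑ r, p r * ν r s) := by
  refine ⟨fun s => Finset.sum_nonneg fun r _ => mul_nonneg (hp.1 r) ((hν r).1 s), ?_⟩
  rw [Finset.sum_comm]
  simp only [← Finset.mul_sum, (hν _).2, mul_one]
  exact hp.2

/-- failure probability of a composition: split `∑ r, p r * pr (ν r) (¬ Q)` according to `P r`;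
if `P r` then the factor is at most `δ2`, otherwise at most one -/
theorem fail_bind {R S : Type} [Fintype R] [Fintype S] {p : R → ℝ} {ν : R → S → ℝ}
    (hp : IsD p) (hν : ∀ r, IsD (ν r)) (P : R → Prop) (Q : S → Prop) {δ1 δ2 : ℝ}
    (h1 : pr p (fun r => ¬ P r) ≤ δ1) (hδ : 0 ≤ δ2)
    (h2 : ∀ r, P r → pr (ν r) (fun s => ¬ Q s) ≤ δ2) :
    pr (fun s => ∑ r, p r * ν r s) (fun s => ¬ Q s) ≤ δ1 + δ2 := by
  classical
  rw [pr_bind]
  have h3 : ∀ r, p r * pr (ν r) (fun s => ¬ Q s) ≤ (if ¬ P r then p r else 0) + p r * δ2 := by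
    intro r
    have h0 := hp.1 r
    by_cases h : P r
    · rw [if_neg (not_not.2 h), zero_add]
      exact mul_le_mul_of_nonneg_left (h2 r h) h0
    · rw [if_pos h]
      have h4 := mul_le_mul_of_nonneg_left (pr_le_one (hν r) (fun s => ¬ Q s)) h0
      have h5 := mul_nonneg h0 hδ
      linarith
  refine (Finset.sum_le_sum fun r _ => h3 r).trans ?_
  rw [Finset.sum_add_distrib, ← Finset.sum_mul, hp.2, one_mul]
  refine add_le_add ?_ le_rfl
  refine le_trans (le_of_eq ?_) h1
  unfold pr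
  refine Finset.sum_congr rfl fun r _ => ?_
  by_cases h : P r
  · rw [if_neg (not_not.2 h), if_neg (not_not.2 h)]
  · rw [if_pos h, if_pos h]

/-- lower bound: if `P r` implies `pr (ν r) Q ≥ c` then `pr (bind) Q ≥ c * pr p P` -/
theorem le_pr_bind {R S : Type} [Fintype R] [Fintype S] {p : R → ℝ} {ν : R → S → ℝ}
    (hp : IsD p) (hν : ∀ r, IsD (ν r)) (P : R → Prop) (Q : S → Prop) {c : ℝ}
    (h2 : ∀ r, P r → c ≤ pr (ν r) Q) :
    c * pr p P ≤ pr (fun s => ∑ r, p r * ν r s) Q := by
  rw [pr_bind]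
  unfold pr
  rw [Finset.mul_sum]
  refine Finset.sum_le_sum fun r _ => ?_
  have h0 := hp.1 r
  by_cases h : P r
  · rw [if_pos h, mul_comm]
    exact mul_le_mul_of_nonneg_left (h2 r h) h0
  · rw [if_neg h, mul_zero]
    exact mul_nonneg h0 (pr_nonneg (hν r).1 Q)

theorem isD_prod {R : Type} [Fintype R] [DecidableEq R] {p : R → ℝ} (hp : IsD p) (n : ℕ) :
    IsD (fun v : Fin n → R => ∏ i, p (v i)) := by
  refine ⟨fun v => Finset.prod_nonneg fun i _ => hp.1 _, ?_⟩
  have h := Finset.prod_univ_sum (fun _ : Fin n => (Finset.univ : Finset R)) (fun _ r => p r)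
  rw [Fintype.piFinset_univ] at h
  rw [← h]
  simp [hp.2]

/-- independent events: `pr (prod) (∀ i, P (v i)) = (pr p P) ^ n`
(`Finset.prod_univ_sum` / `Fintype.piFinset`) -/
theorem pr_prod_forall {R : Type} [Fintype R] [DecidableEq R] (p : R → ℝ) (n : ℕ)
    (P : R → Prop) :
    pr (fun v : Fin n → R => ∏ i, p (v i)) (fun v => ∀ i, P (v i)) = pr p P ^ n := by
  classical
  unfold pr
  have h := Finset.prod_univ_sum (fun _ : Fin n => (Finset.univ : Finset R))
    (fun _ r => if P r then p r else 0)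
  rw [Fintype.piFinset_univ, Finset.prod_const, Finset.card_univ, Fintype.card_fin] at h
  have h2 : (∑ r, if P r then p r else 0) ^ n =
      ∑ v : Fin n → R, ∏ i, (if P (v i) then p (v i) else 0) := h
  refine Eq.trans ?_ (Eq.trans h2.symm ?_)
  · refine Finset.sum_congr rfl fun v _ => ?_
    by_cases hv : ∀ i, P (v i)
    · rw [if_pos hv]
      exact Finset.prod_congr rfl fun i _ => (if_pos (hv i)).symm
    · rw [if_neg hv]
      push Not at hv
      obtain ⟨i, hi⟩ := hv
      exact (Finset.prod_eq_zero (Finset.mem_univ i) (if_neg hi)).symm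
  · congr 1

end P362.QA
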