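import Vale.Agent.Lib.P362.A.Samp
import Vale.Agent.Lib.P362.A.Pr

/-! P362, part QAlg: one trial. -/

namespace P362.QA

variable {V : Type} [Fintype V] [DecidableEq V] [Nonempty V]

/-- Sample `o : Option B` by `samp`; `none`: answer false; `some j`: `ρ` from `dec j`, run
`vf j ρ`. Upper bound: an average of numbers `≤ 1/72`. Lower bound: the set
`{j | g j x}` has at most 3 elements and contains `b`, `ν none ≤ 1/2`, so `c * 3 ≥ 1/2` and
`P(some b) = c ≥ 1/6`, times `dec b x ρ ≥ 1/2`, times 1. -/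
theorem try1 (F : Facts) {B A : Type} [Fintype B] [DecidableEq B] [Nonempty B] [Fintype A]
    [DecidableEq A] [Nonempty A] {dec : B → (V → Bool) → A → ℝ} {qd q qv : ℕ}
    (hd : ∀ b, Realizable qd (dec b)) {g : B → (V → Bool) → Bool}
    (hg : ∀ j, Realizable q (det (g j))) {vf : B → A → (V → Bool) → Bool → ℝ}
    (hv : ∀ b ρ, Realizable qv (vf b ρ)) :
    ∃ ν : (V → Bool) → Bool → ℝ,
      Realizable (9 * (Nat.sqrt (Fintype.card B) + 1) * q + (qd + qv)) ν ∧
      ∀ x, ((∀ b ρ, vf b ρ x true ≤ 1 / 72) → ν x true ≤ 1 / 72) ∧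
        (∀ b ρ, vf b ρ x true = 1 → g b x = true → 1 / 2 ≤ dec b x ρ →
          (Finset.univ.filter (fun j => g j x = true)).card ≤ 3 → 1 / 12 ≤ ν x true) := by
  obtain ⟨ν₀, hν₀, hx⟩ := samp F hg
  let κ : Option B → (V → Bool) → Bool → ℝ := fun o =>
    match o with
    | none => det (fun _ => false)
    | some j => fun x s => ∑ ρ, dec j x ρ * vf j ρ x s
  have hκ : ∀ o, Realizable (qd + qv) (κ o) := by
    intro o
    cases o with
    | none => exact real_det_const F false _
    | some j => exact F.bind V A Bool qd qv (dec j) (fun ρ => vf j ρ) (hd j) (fun ρ => hv j ρ)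
  refine ⟨fun x s => ∑ o, ν₀ x o * κ o x s,
    F.bind V (Option B) Bool _ _ ν₀ κ hν₀ hκ, fun x => ?_⟩
  have hD₀ := real_isD hν₀ x
  have hDd : ∀ j, IsD (dec j x) := fun j => real_isD (hd j) x
  have hDv : ∀ j ρ, IsD (vf j ρ x) := fun j ρ => real_isD (hv j ρ) x
  have hκ0 : ∀ o, 0 ≤ κ o x true := fun o => (real_isD (hκ o) x).1 true
  obtain ⟨⟨c, hc0, hc⟩, hnone⟩ := hx x
  constructor
  · intro hle
    have hκle : ∀ o, κ o x true ≤ 1 / 72 := by
      intro o
      cases o with
      | none =>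
        change (if false = true then (1 : ℝ) else 0) ≤ 1 / 72
        norm_num
      | some j =>
        change ∑ ρ, dec j x ρ * vf j ρ x true ≤ 1 / 72
        calc ∑ ρ, dec j x ρ * vf j ρ x true ≤ ∑ ρ, dec j x ρ * (1 / 72) :=
              Finset.sum_le_sum fun ρ _ =>
                mul_le_mul_of_nonneg_left (hle j ρ) ((hDd j).1 ρ)
          _ = 1 / 72 := by rw [← Finset.sum_mul, (hDd j).2, one_mul]
    calc ∑ o, ν₀ x o * κ o x true ≤ ∑ o, ν₀ x o * (1 / 72) :=
          Finset.sum_le_sum fun o _ => mul_le_mul_of_nonneg_left (hκle o) (hD₀.1 o)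
      _ = 1 / 72 := by rw [← Finset.sum_mul, hD₀.2, one_mul]
  · intro b ρ hvf hgb hdec hcard
    have hsum := hD₀.2
    rw [Fintype.sum_option] at hsum
    simp only [hc] at hsum
    rw [← Finset.sum_filter, Finset.sum_const, nsmul_eq_mul] at hsum
    have hn := hnone ⟨b, hgb⟩
    have hcard' : ((Finset.univ.filter (fun j => g j x = true)).card : ℝ) ≤ 3 := by
      exact_mod_cast hcard
    have hc6 : 1 / 6 ≤ c := by
      nlinarith [mul_le_mul_of_nonneg_right hcard' hc0]
    have h1 : ν₀ x (some b) = c := by rw [hc b, if_pos hgb]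
    have h2 : 1 / 2 ≤ κ (some b) x true := by
      change 1 / 2 ≤ ∑ ρ, dec b x ρ * vf b ρ x true
      have h3 : dec b x ρ * vf b ρ x true ≤ ∑ ρ, dec b x ρ * vf b ρ x true :=
        Finset.single_le_sum (f := fun ρ => dec b x ρ * vf b ρ x true)
          (fun ρ _ => mul_nonneg ((hDd b).1 ρ) ((hDv b ρ).1 true)) (Finset.mem_univ ρ)
      rw [hvf, mul_one] at h3
      exact hdec.trans h3
    have h4 : ν₀ x (some b) * κ (some b) x true ≤ ∑ o, ν₀ x o * κ o x true :=
      Finset.single_le_sum (f := fun o => ν₀ x o * κ o x true)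
        (fun o _ => mul_nonneg (hD₀.1 o) (hκ0 o)) (Finset.mem_univ (some b))
    refine le_trans ?_ h4
    rw [h1]
    nlinarith

end P362.QA
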