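import Vale.Agent.Lib.P362.A.Rep

/-! P362, part QAlg: verification of a certificate. -/

namespace P362.QA

variable {V : Type} [Fintype V] [DecidableEq V] [Nonempty V]

/-- Evaluate the head; if it is false answer false. Otherwise search for a violated check:
base kernel on `Bool` (or `Ch × Bool`): `c` uniform, evaluate `chk c`; value at `false` is
(number of violated checks) / card Ch; `rep` with `G r = !r`, `J = Nat.sqrt (card Ch) + 1`,
`K = 16`, answer true iff the result is `none`. If no check is violated then the result is `none`
with probability one (`ν (some r) = 0` for all `r`); if some check is violated then the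
probability of `none` is at most `(3/4)^16 ≤ 1/72`.
Cost `h + 16 * ((2 J + 1) p) ≤ h + 48 J p`. -/
theorem vrfy (F : Facts) {Ch : Type} [Fintype Ch] [DecidableEq Ch] [Nonempty Ch]
    (head : DT V Bool) (chk : Ch → DT V Bool) {h p : ℕ} (hh : head.depth ≤ h)
    (hc : ∀ c, (chk c).depth ≤ p) :
    ∃ ν : (V → Bool) → Bool → ℝ,
      Realizable (h + 48 * (Nat.sqrt (Fintype.card Ch) + 1) * p) ν ∧
      ∀ x, ((head.eval x = true ∧ ∀ c, (chk c).eval x = true) → ν x true = 1) ∧
        (¬ (head.eval x = true ∧ ∀ c, (chk c).eval x = true) → ν x true ≤ 1 / 72) := by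
  classical
  have hN : (0 : ℝ) < Fintype.card Ch := by exact_mod_cast Fintype.card_pos
  -- the base kernel
  have hun : IsD (fun _ : Ch => (1 : ℝ) / Fintype.card Ch) := by
    refine ⟨fun _ => by positivity, ?_⟩
    rw [Finset.sum_const, Finset.card_univ, nsmul_eq_mul]
    field_simp
  have hμ : Realizable (0 + p) (fun (x : V → Bool) (r : Bool) =>
      ∑ c : Ch, (1 : ℝ) / Fintype.card Ch * det (chk c).eval x r) :=
    F.bind V Ch Bool 0 p (fun _ _ => (1 : ℝ) / Fintype.card Ch) (fun c => det (chk c).eval)
      (real_pure F _ hun 0) (fun c => real_det_tree F (chk c) (hc c))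
  rw [zero_add] at hμ
  set J : ℕ := Nat.sqrt (Fintype.card Ch) + 1 with hJ
  have hJ1 : 1 ≤ J := by omega
  obtain ⟨ν1, hν1, hν1x⟩ := rep F hμ (fun r => !r) hJ1 16
  have hmap := real_map F hν1 (fun r : Option Bool => r.isNone)
  have hcost : 16 * ((2 * J + 1) * p) ≤ 48 * J * p := by
    have : 16 * (2 * J + 1) ≤ 48 * J := by omega
    calc 16 * ((2 * J + 1) * p) = (16 * (2 * J + 1)) * p := by ring
      _ ≤ (48 * J) * p := Nat.mul_le_mul_right _ this
  have hmap' := real_mono hcost hmap
  refine ⟨_, F.bind V Bool Bool h (48 * J * p) (det head.eval)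
    (fun b x s => if b then ∑ r, ν1 x r * (if (fun r : Option Bool => r.isNone) r = s then 1 else 0)
      else det (fun _ => false) x s)
    (real_det_tree F head hh) ?_, ?_⟩
  · intro b
    cases b
    · simpa using real_det_const (V := V) F false (48 * J * p)
    · simpa using hmap'
  · intro x
    obtain ⟨⟨c, hc0, hcr⟩, hnone⟩ := hν1x x
    have hval : ∑ r : Bool, det head.eval x r * (if r then ∑ r', ν1 x r' *
        (if (fun r : Option Bool => r.isNone) r' = true then 1 else 0)
        else det (fun _ : V → Bool => false) x true) =
        if head.eval x = true then ν1 x none else 0 := by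
      rw [Fintype.sum_bool]
      simp [det]
    have hsum := (real_isD hν1 x).2
    rw [Fintype.sum_option, Fintype.sum_bool] at hsum
    have ht := hcr true
    have hf := hcr false
    simp only [Bool.not_true, Bool.false_eq_true, if_false, Bool.not_false, if_true] at ht hf
    refine ⟨fun hall => ?_, fun hnot => ?_⟩
    · refine hval.trans ?_
      rw [if_pos hall.1]
      have h0 : ∑ c : Ch, (1 : ℝ) / Fintype.card Ch * det (chk c).eval x false = 0 := by
        refine Finset.sum_eq_zero fun c _ => ?_
        simp [det, hall.2 c]
      rw [h0, mul_zero] at hf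
      rw [ht, hf] at hsum
      linarith
    · refine hval.le.trans ?_
      split_ifs with hhd
      · have hex : ∃ c, (chk c).eval x ≠ true := by
          by_contra hcon
          push Not at hcon
          exact hnot ⟨hhd, hcon⟩
        obtain ⟨c0, hc0'⟩ := hex
        have hc0f : (chk c0).eval x = false := by simpa using hc0'
        have hge : (1 : ℝ) / Fintype.card Ch ≤
            ∑ c : Ch, (1 : ℝ) / Fintype.card Ch * det (chk c).eval x false := by
          have hsing := Finset.single_le_sum
            (f := fun c : Ch => (1 : ℝ) / Fintype.card Ch * det (chk c).eval x false)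
            (fun c _ => by
              have : 0 ≤ det (chk c).eval x false := by unfold det; split_ifs <;> norm_num
              positivity) (Finset.mem_univ c0)
          refine le_trans (le_of_eq ?_) hsing
          simp [det, hc0f]
        have hJ2 : (Fintype.card Ch : ℝ) ≤ (J : ℝ) ^ 2 := by
          have h1 : Fintype.card Ch ≤ J ^ 2 := by
            have := Nat.lt_succ_sqrt (Fintype.card Ch)
            rw [hJ, pow_two]
            exact this.le
          exact_mod_cast h1
        have hone : (1 : ℝ) ≤ (J : ℝ) ^ 2 * ∑ r : Bool, (if (!r) = true then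
            ∑ c : Ch, (1 : ℝ) / Fintype.card Ch * det (chk c).eval x r else 0) := by
          rw [Fintype.sum_bool]
          simp only [Bool.not_true, Bool.false_eq_true, if_false, Bool.not_false, if_true,
            zero_add]
          calc (1 : ℝ) = (Fintype.card Ch : ℝ) * (1 / Fintype.card Ch) := by field_simp
            _ ≤ (J : ℝ) ^ 2 * ∑ c : Ch, (1 : ℝ) / Fintype.card Ch * det (chk c).eval x false :=
              mul_le_mul hJ2 hge (by positivity) (by positivity)
        refine (hnone hone).trans ?_
        norm_num
      · norm_num

end P362.QA
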