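import Vale.Agent.Lib.P362.A.Phase
import Vale.Agent.Lib.P362.A.Try
import Vale.Agent.Lib.P362.A.Vrfy
import Vale.Agent.Lib.P362.A.Num

/-! P362, part QAlg: the search algorithm. -/

namespace P362.QA

/-- a kernel on `Bool`: the two values add up to one -/
private theorem bool_add {p : Bool → ℝ} (hp : IsD p) : p true + p false = 1 := by
  have h := hp.2
  rwa [Fintype.sum_bool] at h

private theorem pr_not_true (p : Bool → ℝ) : pr p (fun s => ¬ s = true) = p false := by
  unfold pr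
  rw [Fintype.sum_bool]
  simp

/-- the final stage for a fixed list: `24` trials -/
private theorem stage (F : Facts) {V B A Ch : Type} [Fintype V] [DecidableEq V] [Nonempty V]
    [Fintype B] [DecidableEq B] [Nonempty B] [Fintype A] [DecidableEq A] [Nonempty A]
    [Fintype Ch] [DecidableEq Ch] [Nonempty Ch] (leaf : A → B → DT V Bool)
    (dec : B → (V → Bool) → A → ℝ) (head : B → A → DT V Bool) (chk : B → A → Ch → DT V Bool)
    (p h qd : ℕ) (hp : ∀ ρ j, (leaf ρ j).depth ≤ p) (hd : ∀ b, Realizable qd (dec b))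
    (hh : ∀ b ρ, (head b ρ).depth ≤ h) (hc : ∀ b ρ c, (chk b ρ c).depth ≤ p) (r : ℕ)
    (rs : Fin r → A) :
    ∃ ν : (V → Bool) → Bool → ℝ,
      Realizable (24 * (9 * (Nat.sqrt (Fintype.card B) + 1) * (r * p) +
        (qd + (h + 48 * (Nat.sqrt (Fintype.card Ch) + 1) * p)))) ν ∧
      ∀ x, ((∀ b ρ, ¬ Valid head chk x b ρ) → ν x true ≤ 1 / 3) ∧
        (∀ b ρ, Valid head chk x b ρ → inS leaf rs b x = true → 1 / 2 ≤ dec b x ρ →
          (cand leaf rs x).card ≤ 3 → ν x false ≤ 1 / 8) := by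
  choose vf hvf1 hvf2 using fun b ρ => vrfy F (head b ρ) (chk b ρ) (hh b ρ) (hc b ρ)
  obtain ⟨μ, hμ1, hμ2⟩ := try1 F hd (g := inS leaf rs) (fun j => real_inS F leaf hp rs j) hvf1
  obtain ⟨ν, hν1, hν2⟩ := orK F hμ1 24
  refine ⟨ν, hν1, fun x => ⟨fun hv => ?_, fun b ρ hv hS hdec hcard => ?_⟩⟩
  · have h1 : μ x true ≤ 1 / 72 := (hμ2 x).1 (fun b ρ => (hvf2 b ρ x).2 (hv b ρ))
    have h2 := (hν2 x).2
    have h3 : ((24 : ℕ) : ℝ) = 24 := by norm_num
    rw [h3] at h2
    linarith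
  · have h1 : 1 / 12 ≤ μ x true :=
      (hμ2 x).2 b ρ ((hvf2 b ρ x).1 hv) hS hdec hcard
    have hD : IsD (μ x) := real_isD hμ1 x
    have h2 := bool_add hD
    have h3 : μ x false ≤ 11 / 12 := by linarith
    rw [(hν2 x).1]
    exact (pow_le_pow_left₀ (hD.1 false) h3 24).trans num_try

/-- `r = Nat.log 2 (card B) + 1` rounds of `phase`, then for the list `rs` 24 trials (`orK` of
`try1` with `g j = inS leaf rs j`, `vf = vrfy`). If `F x = false` then every trial accepts with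
probability `≤ 1/72`, in total `≤ 24/72 = 1/3`. If `F x = true`: `phase` gives
`card (cand) ≤ 3` up to probability `1/8` (`num_fail`; `card * 2^r ≤ card B < 2^r` gives
`card = 0`), then the trials fail with probability at most `(11/12)^24 ≤ 1/8`. -/
theorem partQAlg_of (F : Facts) : PartQAlg := by
  refine ⟨10000, ?_⟩
  intro V B A Ch _ _ _ _ _ _ _ _ _ _ _ _ leaf dec head chk p h qd Fn hp hd hh hc hF hdec
    hleaf0 hleaf1
  set L : ℕ := Nat.log 2 (Fintype.card B) + Nat.log 2 (Fintype.card A) + 2 with hL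
  set r : ℕ := Nat.log 2 (Fintype.card B) + 1 with hr
  obtain ⟨ν1, hν1, hph⟩ := phase F leaf hp hd (6 * (2 * L + 4)) (3 * (L + 4)) r r le_rfl
  choose ν2 hν2 hst using fun rs : Fin r → A =>
    stage F leaf dec head chk p h qd hp hd hh hc r rs
  have hbind := F.bind V (Fin r → A) Bool _ _ ν1 ν2 hν1 hν2
  have hcost := real_mono (num_cost L r (Nat.sqrt (Fintype.card B)) (Nat.sqrt (Fintype.card Ch))
    qd p h (by omega) (by omega)) hbind
  obtain ⟨T, hT, Al, hA⟩ := hcost
  refine ⟨T, ⟨Al, fun x => ?_⟩, hT⟩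
  rw [hA]
  have hD1 : IsD (ν1 x) := real_isD hν1 x
  have hD2 : ∀ rs, IsD (ν2 rs x) := fun rs => real_isD (hν2 rs) x
  have hD : IsD (fun s => ∑ rs, ν1 x rs * ν2 rs x s) := isD_bind hD1 hD2
  have hsum : ∑ rs, ν1 x rs * ν2 rs x true + ∑ rs, ν1 x rs * ν2 rs x false = 1 := bool_add hD
  cases hFx : Fn x with
  | false =>
    have hv : ∀ b ρ, ¬ Valid head chk x b ρ := by
      intro b ρ hV
      have : Fn x = true := (hF x).2 ⟨b, ρ, hV⟩
      rw [hFx] at this
      exact Bool.noConfusion this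
    have h1 : ∑ rs, ν1 x rs * ν2 rs x true ≤ 1 / 3 := by
      calc ∑ rs, ν1 x rs * ν2 rs x true ≤ ∑ rs, ν1 x rs * (1 / 3) :=
            Finset.sum_le_sum (fun rs _ =>
              mul_le_mul_of_nonneg_left ((hst rs x).1 hv) (hD1.1 rs))
        _ = 1 / 3 := by rw [← Finset.sum_mul, hD1.2, one_mul]
    linarith
  | true =>
    obtain ⟨b0, ρ0, hV⟩ := (hF x).1 hFx
    have hd0 := hdec x b0 ρ0 hV
    have hl0 := hleaf0 x b0 ρ0 hV
    have hl1 := hleaf1 x b0 ρ0 hV
    have h1 : pr (ν1 x) (fun rs => ¬ ((cand leaf rs x).card ≤ 3 ∨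
        (cand leaf rs x).card * 2 ^ r ≤ Fintype.card B)) ≤ 1 / 8 :=
      (hph x b0 ρ0 hd0 hl0 hl1).trans
        (num_fail (Fintype.card B) (Fintype.card A) L hL)
    have h2 : ∀ rs, ((cand leaf rs x).card ≤ 3 ∨
        (cand leaf rs x).card * 2 ^ r ≤ Fintype.card B) →
        pr (ν2 rs x) (fun s => ¬ s = true) ≤ 1 / 8 := by
      intro rs hrs
      rw [pr_not_true]
      have hc3 : (cand leaf rs x).card ≤ 3 := by
        rcases hrs with hrs | hrs
        · exact hrs
        · have hlt : Fintype.card B < 2 ^ r := Nat.lt_pow_succ_log_self (by norm_num) _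
          by_contra hcon
          have h4 : 1 * 2 ^ r ≤ (cand leaf rs x).card * 2 ^ r :=
            Nat.mul_le_mul_right _ (by omega)
          omega
      refine (hst rs x).2 b0 ρ0 hV ?_ hd0 hc3
      unfold inS
      exact decide_eq_true (fun i => hl0 (rs i))
    have h3 := fail_bind hD1 hD2 _ (fun s => s = true) h1 (by norm_num) h2
    rw [pr_not_true] at h3
    linarith

end P362.QA

namespace P362

theorem partQAlg (h1 : PartQTree) (h2 : PartQBind) (h3 : PartQAmp) : PartQAlg :=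
  QA.partQAlg_of ⟨h1, h2, h3⟩

end P362
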