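import Vale.Agent.Lib.P362.A.Round

/-! P362, part QAlg: all rounds. -/

namespace P362.QA

variable {V : Type} [Fintype V] [DecidableEq V] [Nonempty V]

private theorem cand_snoc {B A : Type} [Fintype B] (leaf : A → B → DT V Bool) {t : ℕ}
    (rs : Fin t → A) (ρ : A) (x : V → Bool) :
    cand leaf (Fin.snoc (α := fun _ => A) rs ρ : Fin (t + 1) → A) x =
      (cand leaf rs x).filter (fun j => (leaf ρ j).eval x = false) := by
  ext j
  simp only [cand, inS, Finset.mem_filter, Finset.mem_univ, true_and, decide_eq_true_eq]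
  rw [Fin.forall_fin_succ']
  simp only [Fin.snoc_castSucc, Fin.snoc_last]

private theorem pr_map' {R S : Type} [Fintype R] [Fintype S] [DecidableEq S] (p : R → ℝ)
    (f : R → S) (Q : S → Prop) :
    pr (fun s => ∑ r, p r * (if f r = s then 1 else 0)) Q = pr p (fun r => Q (f r)) := by
  classical
  rw [pr_bind p (fun r s => if f r = s then 1 else 0) Q]
  unfold pr
  refine Finset.sum_congr rfl fun r _ => ?_
  rw [Finset.sum_eq_single (f r)]
  · by_cases h : Q (f r) <;> simp [h]
  · intro s _ hs
    by_cases h : Q s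
    · rw [if_pos h]
      exact if_neg (Ne.symm hs)
    · rw [if_neg h]
  · intro h
    exact absurd (Finset.mem_univ _) h

private theorem pr_false' {R : Type} [Fintype R] (p : R → ℝ) {P : R → Prop}
    (h : ∀ r, ¬ P r) : pr p P = 0 := by
  unfold pr
  refine Finset.sum_eq_zero fun r _ => ?_
  rw [if_neg (h r)]

/-- Induction on `t ≤ r`: run the kernel for `t`, then `round` for the list `rs` and output
`Fin.snoc rs ρ` (`cand` of the new list is the old one filtered by `leaf ρ j = false`).
`fail_bind` with `P rs := card ≤ 3 ∨ card * 2^t ≤ card B`: if `card ≤ 3` then the new set is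
smaller, hence no failure; otherwise `card ≥ 4` and `round` applies. -/
theorem phase (F : Facts) {B A : Type} [Fintype B] [DecidableEq B] [Nonempty B] [Fintype A]
    [DecidableEq A] [Nonempty A] (leaf : A → B → DT V Bool) {dec : B → (V → Bool) → A → ℝ}
    {qd p : ℕ} (hp : ∀ ρ j, (leaf ρ j).depth ≤ p) (hd : ∀ b, Realizable qd (dec b))
    (n K r : ℕ) (t : ℕ) (ht : t ≤ r) :
    ∃ ν : (V → Bool) → (Fin t → A) → ℝ,
      Realizable (t * (n * (9 * (Nat.sqrt (Fintype.card B) + 1) * (r * p)) +
        K * (5 * (Nat.sqrt (Fintype.card B) + 1) * (qd + n * p)))) ν ∧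
      ∀ x b0 ρ0, 1 / 2 ≤ dec b0 x ρ0 → (∀ ρ, (leaf ρ b0).eval x = false) →
        (∀ j, j ≠ b0 → (leaf ρ0 j).eval x = true) →
        pr (ν x) (fun rs => ¬ ((cand leaf rs x).card ≤ 3 ∨
          (cand leaf rs x).card * 2 ^ t ≤ Fintype.card B)) ≤
          t * ((Fintype.card B * Fintype.card A : ℝ) * (7 / 8) ^ n + (3 / 4) ^ K) := by
  classical
  set sq := Nat.sqrt (Fintype.card B) + 1 with hsq
  set δ : ℝ := (Fintype.card B * Fintype.card A : ℝ) * (7 / 8) ^ n + (3 / 4) ^ K with hδdef
  have hδ : 0 ≤ δ := by positivity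
  induction t with
  | zero =>
    refine ⟨fun _ _ => 1, ?_, ?_⟩
    · exact real_pure F (fun _ => 1) ⟨fun _ => zero_le_one, by simp⟩ _
    · intro x b0 ρ0 _ _ _
      rw [pr_false']
      · simp
      · intro rs h
        apply h
        right
        rw [pow_zero, mul_one]
        exact Finset.card_le_univ _
  | succ t ih =>
    obtain ⟨ν, hν, hfail⟩ := ih (Nat.le_of_succ_le ht)
    have hround := fun rs : Fin t → A => round F leaf hp hd rs n K
    choose κ hκ hκfail using hround
    have hcost : n * (9 * sq * (t * p)) + K * (5 * sq * (qd + n * p)) ≤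
        n * (9 * sq * (r * p)) + K * (5 * sq * (qd + n * p)) := by
      have htr : t ≤ r := Nat.le_of_succ_le ht
      gcongr
    have hmap := fun rs : Fin t → A => real_map F (real_mono hcost (hκ rs))
      (fun ρ => (Fin.snoc (α := fun _ => A) rs ρ : Fin (t + 1) → A))
    have hb := F.bind V (Fin t → A) (Fin (t + 1) → A) _ _ ν _ hν hmap
    refine ⟨fun x s => ∑ rs, ν x rs * ∑ ρ, κ rs x ρ *
      (if (Fin.snoc (α := fun _ => A) rs ρ : Fin (t + 1) → A) = s then 1 else 0), ?_, ?_⟩
    · have e : (t + 1) * (n * (9 * sq * (r * p)) + K * (5 * sq * (qd + n * p))) =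
          t * (n * (9 * sq * (r * p)) + K * (5 * sq * (qd + n * p))) +
            (n * (9 * sq * (r * p)) + K * (5 * sq * (qd + n * p))) := by ring
      rw [e]
      exact hb
    · intro x b0 ρ0 h1 h2 h3
      have hf := fail_bind (real_isD hν x) (fun rs => real_isD (hmap rs) x)
        (fun rs => (cand leaf rs x).card ≤ 3 ∨ (cand leaf rs x).card * 2 ^ t ≤ Fintype.card B)
        (fun rs => (cand leaf rs x).card ≤ 3 ∨
          (cand leaf rs x).card * 2 ^ (t + 1) ≤ Fintype.card B)
        (hfail x b0 ρ0 h1 h2 h3) hδ (fun rs hrs => ?_)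
      · refine hf.trans (le_of_eq ?_)
        push_cast
        ring
      · rw [pr_map']
        by_cases hc : (cand leaf rs x).card ≤ 3
        · rw [pr_false']
          · exact hδ
          · intro ρ h
            apply h
            left
            rw [cand_snoc]
            exact (Finset.card_filter_le _ _).trans hc
        · have hc4 : 4 ≤ (cand leaf rs x).card := by omega
          refine (pr_mono (real_isD (hκ rs) x).1 (fun ρ h hle => h ?_)).trans
            (hκfail rs x b0 ρ0 h1 h2 h3 hc4)
          right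
          rw [cand_snoc, pow_succ]
          have h5 := hrs.resolve_left hc
          calc _ = (2 * ((cand leaf rs x).filter
                (fun j => (leaf ρ j).eval x = false)).card) * 2 ^ t := by ring
            _ ≤ (cand leaf rs x).card * 2 ^ t := Nat.mul_le_mul_right _ hle
            _ ≤ _ := h5

end P362.QA
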