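import Vale.Agent.Lib.P362.A.Det

/-! P362, part QAlg: repeated amplitude amplification. -/

namespace P362.QA

variable {V : Type} [Fintype V] [DecidableEq V] [Nonempty V]

/-- `K` repetitions of the amplified kernel. Proof: induction on `K`; `K = 0`: the kernel
concentrated at `none` (c = 0); step: run the amplified kernel `ν₁` (`F.amp`); on `some r` output
`some r`, on `none` run `ν_K`. So `ν_{K+1} (some r) = ν₁ (some r) + ν₁ none * ν_K (some r)` and
`ν_{K+1} none = ν₁ none * ν_K none`, and `ν₁ none = 1 - ∑ ν₁ (some r) ≤ 3/4` (`real_isD`). -/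
theorem rep (F : Facts) {R : Type} [Fintype R] [DecidableEq R] {q : ℕ}
    {μ : (V → Bool) → R → ℝ} (hμ : Realizable q μ) (G : R → Bool) {J : ℕ} (hJ : 1 ≤ J) (K : ℕ) :
    ∃ ν : (V → Bool) → Option R → ℝ, Realizable (K * ((2 * J + 1) * q)) ν ∧
      ∀ x, (∃ c : ℝ, 0 ≤ c ∧ ∀ r, ν x (some r) = if G r then c * μ x r else 0) ∧
        (1 ≤ (J : ℝ) ^ 2 * ∑ r, (if G r then μ x r else 0) → ν x none ≤ (3 / 4) ^ K) := by
  induction K with
  | zero =>
    refine ⟨det (fun _ => none), real_mono (Nat.zero_le _) (real_det_const F none 0),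
      fun x => ⟨⟨0, le_refl _, fun r => ?_⟩, fun _ => ?_⟩⟩
    · simp [det]
    · simp [det]
  | succ K ih =>
    obtain ⟨νK, hνK, hK⟩ := ih
    obtain ⟨ν₁, hν₁, h1⟩ := F.amp V R q μ G J hJ hμ
    let h : Option R → (V → Bool) → Option R → ℝ := fun o =>
      match o with
      | some r => det (fun _ => some r)
      | none => νK
    have hh : ∀ o, Realizable (K * ((2 * J + 1) * q)) (h o) := by
      intro o
      cases o with
      | none => exact hνK
      | some r => exact real_det_const F (some r) _
    have hb := F.bind V (Option R) (Option R) _ _ ν₁ h hν₁ hh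
    have hval : ∀ x s, ∑ r : Option R, ν₁ x r * h r x s =
        ν₁ x none * νK x s + ∑ r : R, ν₁ x (some r) * (if some r = s then 1 else 0) := by
      intro x s
      rw [Fintype.sum_option]
      rfl
    have hsome : ∀ x (r : R), ∑ o : Option R, ν₁ x o * h o x (some r) =
        ν₁ x none * νK x (some r) + ν₁ x (some r) := by
      intro x r
      rw [hval]
      simp
    have hnone : ∀ x, ∑ o : Option R, ν₁ x o * h o x none = ν₁ x none * νK x none := by
      intro x
      rw [hval]
      simp
    refine ⟨fun x s => ∑ r : Option R, ν₁ x r * h r x s,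
      real_mono (le_of_eq (by ring)) hb, fun x => ?_⟩
    obtain ⟨⟨cK, hcK, hK1⟩, hK2⟩ := hK x
    obtain ⟨c1, hc1, h11, h12⟩ := h1 x
    have hD1 := real_isD hν₁ x
    have hDK := real_isD hνK x
    refine ⟨⟨c1 + ν₁ x none * cK, add_nonneg hc1 (mul_nonneg (hD1.1 none) hcK), fun r => ?_⟩,
      fun hJ1 => ?_⟩
    · simp only [hsome, hK1, h11]
      split_ifs
      · ring
      · ring
    · simp only [hnone]
      have h2 : ν₁ x none ≤ 3 / 4 := by
        have h3 := hD1.2
        rw [Fintype.sum_option] at h3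
        have h4 := h12 hJ1
        linarith
      rw [pow_succ, mul_comm ((3 / 4 : ℝ) ^ K)]
      exact mul_le_mul h2 (hK2 hJ1) (hDK.1 none) (by norm_num)

end P362.QA
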