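import Vale.Agent.Lib.P362.A.Rep
import Vale.Agent.Lib.P362.A.Pr

/-! P362, part QAlg: amplified search for an address passing a test. -/

namespace P362.QA

variable {V : Type} [Fintype V] [DecidableEq V] [Nonempty V]

/-- Base kernel on `(B × A) × Bool`: `b` uniform, `ρ` from `dec b`, then the test `g b ρ`.
`rep` with `G = second component`, `J = 2 (Nat.sqrt (card B) + 1)` (`J ^ 2 ≥ 2 card B`, and the
probability of passing is at least `1 / (2 card B)`), `2 J + 1 ≤ 5 (Nat.sqrt (card B) + 1)`;
then map `some ((b, ρ), r) ↦ ρ`, `none ↦` a default. The outcomes `some ((b, ρ), r)` of nonzero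
probability have `r = true` and `g b ρ x = true`. -/
theorem srch (F : Facts) {B A : Type} [Fintype B] [DecidableEq B] [Nonempty B] [Fintype A]
    [DecidableEq A] [Nonempty A] {dec : B → (V → Bool) → A → ℝ} {qd q : ℕ}
    (hd : ∀ b, Realizable qd (dec b)) {g : B → A → (V → Bool) → Bool}
    (hg : ∀ b ρ, Realizable q (det (g b ρ))) (K : ℕ) :
    ∃ ν : (V → Bool) → A → ℝ,
      Realizable (K * (5 * (Nat.sqrt (Fintype.card B) + 1) * (qd + q))) ν ∧
      ∀ x, (∃ b ρ, g b ρ x = true ∧ 1 / 2 ≤ dec b x ρ) →
        pr (ν x) (fun ρ => ¬ ∃ b, g b ρ x = true) ≤ (3 / 4) ^ K := by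
  classical
  obtain ⟨a0⟩ := ‹Nonempty A›
  have hn : 0 < Fintype.card B := Fintype.card_pos
  have hnR : (0 : ℝ) < Fintype.card B := by exact_mod_cast hn
  -- the base kernel
  let τ : B → A → (V → Bool) → (B × A) × Bool → ℝ := fun b ρ x s =>
    ∑ r, det (g b ρ) x r * (if ((b, ρ), r) = s then 1 else 0)
  let κ : B → (V → Bool) → (B × A) × Bool → ℝ := fun b x s => ∑ ρ, dec b x ρ * τ b ρ x s
  let μ : (V → Bool) → (B × A) × Bool → ℝ := fun x s =>
    ∑ b, (1 / (Fintype.card B : ℝ)) * κ b x s
  have hτ : ∀ b ρ, Realizable q (τ b ρ) := fun b ρ =>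
    real_map F (hg b ρ) (fun r => ((b, ρ), r))
  have hκ : ∀ b, Realizable (qd + q) (κ b) := fun b =>
    F.bind V A ((B × A) × Bool) qd q (dec b) (τ b) (hd b) (hτ b)
  have hunif : Realizable (V := V) 0 (fun _ => fun _ : B => 1 / (Fintype.card B : ℝ)) := by
    refine real_pure F _ ⟨fun _ => by positivity, ?_⟩ 0
    rw [Finset.sum_const, Finset.card_univ, nsmul_eq_mul, mul_one_div, div_self hnR.ne']
  have hμ : Realizable (0 + (qd + q)) μ :=
    F.bind V B ((B × A) × Bool) 0 (qd + q) _ κ hunif hκ
  have hμval : ∀ x b ρ r, μ x ((b, ρ), r) =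
      1 / (Fintype.card B : ℝ) * (dec b x ρ * (if g b ρ x = r then 1 else 0)) := by
    intro x b ρ r
    have h1 : ∀ b' ρ', τ b' ρ' x ((b, ρ), r) =
        if b' = b ∧ ρ' = ρ then (if g b ρ x = r then 1 else 0) else 0 := by
      intro b' ρ'
      by_cases h : b' = b ∧ ρ' = ρ
      · obtain ⟨rfl, rfl⟩ := h
        change ∑ r', det (g b' ρ') x r' * (if ((b', ρ'), r') = ((b', ρ'), r) then 1 else 0) = _
        rw [Finset.sum_eq_single r]
        · rw [if_pos rfl, mul_one, if_pos ⟨rfl, rfl⟩]
          rfl
        · intro r' _ hr'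
          rw [if_neg (fun h2 => hr' (Prod.ext_iff.1 h2).2), mul_zero]
        · intro h2
          exact absurd (Finset.mem_univ r) h2
      · rw [if_neg h]
        refine Finset.sum_eq_zero fun r' _ => ?_
        rw [if_neg, mul_zero]
        intro h2
        have h3 := (Prod.ext_iff.1 h2).1
        exact h ⟨(Prod.ext_iff.1 h3).1, (Prod.ext_iff.1 h3).2⟩
    have h2 : ∀ b', κ b' x ((b, ρ), r) =
        if b' = b then dec b x ρ * (if g b ρ x = r then 1 else 0) else 0 := by
      intro b'
      change ∑ ρ', dec b' x ρ' * τ b' ρ' x ((b, ρ), r) = _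
      by_cases h : b' = b
      · subst h
        rw [if_pos rfl, Finset.sum_eq_single ρ]
        · rw [h1, if_pos ⟨rfl, rfl⟩]
        · intro ρ' _ hρ'
          rw [h1, if_neg (fun h3 => hρ' h3.2), mul_zero]
        · intro h3
          exact absurd (Finset.mem_univ ρ) h3
      · rw [if_neg h]
        refine Finset.sum_eq_zero fun ρ' _ => ?_
        rw [h1, if_neg (fun h3 => h h3.1), mul_zero]
    change ∑ b', (1 / (Fintype.card B : ℝ)) * κ b' x ((b, ρ), r) = _
    rw [Finset.sum_eq_single b]
    · rw [h2, if_pos rfl]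
    · intro b' _ hb'
      rw [h2, if_neg hb', mul_zero]
    · intro h3
      exact absurd (Finset.mem_univ b) h3
  -- amplification
  set J : ℕ := 2 * (Nat.sqrt (Fintype.card B) + 1) with hJ
  obtain ⟨ν, hν, hνx⟩ := rep F hμ (fun s => s.2) (J := J) (by omega) K
  let f : Option ((B × A) × Bool) → A := fun o => o.elim a0 (fun s => s.1.2)
  refine ⟨fun x ρ => ∑ o, ν x o * (if f o = ρ then 1 else 0), ?_, ?_⟩
  · refine real_mono ?_ (real_map F hν f)
    refine Nat.mul_le_mul_left K ?_
    rw [zero_add]
    refine Nat.mul_le_mul_right _ ?_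
    rw [hJ]
    omega
  · rintro x ⟨b0, ρ0, hg0, hd0⟩
    obtain ⟨⟨c, hc0, hc⟩, hnone⟩ := hνx x
    have hD := real_isD hν x
    have hDμ := real_isD hμ x
    have hsum : 1 / (2 * (Fintype.card B : ℝ)) ≤
        ∑ s, (if (fun s : (B × A) × Bool => s.2) s then μ x s else 0) := by
      have h1 : (if (fun s : (B × A) × Bool => s.2) ((b0, ρ0), true) then
          μ x ((b0, ρ0), true) else 0) ≤
          ∑ s, (if (fun s : (B × A) × Bool => s.2) s then μ x s else 0) :=
        Finset.single_le_sum
          (f := fun s => if (fun s : (B × A) × Bool => s.2) s then μ x s else 0)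
          (fun s _ => by
            dsimp only
            split_ifs
            · exact hDμ.1 s
            · exact le_rfl) (Finset.mem_univ ((b0, ρ0), true))
      refine le_trans ?_ h1
      rw [if_pos rfl, hμval, if_pos hg0, mul_one, one_div, one_div, mul_inv, mul_comm]
      gcongr
      rw [← one_div]
      exact hd0
    have hJ2 : 1 ≤ (J : ℝ) ^ 2 *
        ∑ s, (if (fun s : (B × A) × Bool => s.2) s then μ x s else 0) := by
      have h1 : (2 * (Fintype.card B : ℝ)) ≤ (J : ℝ) ^ 2 := by
        have h2 : Fintype.card B < (Nat.sqrt (Fintype.card B) + 1) *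
            (Nat.sqrt (Fintype.card B) + 1) := Nat.lt_succ_sqrt _
        have h3 : 2 * Fintype.card B ≤ J ^ 2 := by
          rw [hJ]
          nlinarith
        exact_mod_cast h3
      calc (1 : ℝ) = (2 * (Fintype.card B : ℝ)) * (1 / (2 * (Fintype.card B : ℝ))) := by
            rw [mul_one_div, div_self (by positivity)]
        _ ≤ _ := mul_le_mul h1 hsum (by positivity) (by positivity)
    have hno := hnone hJ2
    rw [pr_bind]
    have h1 : ∀ o, ν x o * pr (fun ρ => if f o = ρ then (1 : ℝ) else 0)
        (fun ρ => ¬ ∃ b, g b ρ x = true) ≤ if o = none then ν x none else 0 := by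
      intro o
      have hpr : pr (fun ρ => if f o = ρ then (1 : ℝ) else 0) (fun ρ => ¬ ∃ b, g b ρ x = true) =
          if ¬ ∃ b, g b (f o) x = true then 1 else 0 := by
        unfold pr
        rw [Finset.sum_eq_single (f o)]
        · beta_reduce
          rw [if_pos (rfl : f o = f o)]
          split_ifs <;> rfl
        · intro ρ _ hρ
          beta_reduce
          rw [if_neg (Ne.symm hρ), ite_self]
        · intro h3
          exact absurd (Finset.mem_univ _) h3
      rw [hpr]
      cases o with
      | none =>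
        rw [if_pos rfl]
        refine mul_le_of_le_one_right (hD.1 none) ?_
        split_ifs <;> norm_num
      | some s =>
        obtain ⟨⟨b, ρ⟩, r⟩ := s
        rw [if_neg (Option.some_ne_none _)]
        by_cases h2 : ∃ b', g b' (f (some ((b, ρ), r))) x = true
        · rw [if_neg (not_not.2 h2), mul_zero]
        · have h3 : ν x (some ((b, ρ), r)) = 0 := by
            rw [hc]
            cases r with
            | false => rfl
            | true =>
              rw [if_pos rfl, hμval]
              have h4 : ¬ g b ρ x = true := fun h5 => h2 ⟨b, h5⟩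
              rw [if_neg h4, mul_zero, mul_zero, mul_zero]
          rw [h3, zero_mul]
    refine (Finset.sum_le_sum fun o _ => h1 o).trans ?_
    rw [Finset.sum_ite_eq' Finset.univ none (fun _ => ν x none), if_pos (Finset.mem_univ _)]
    exact hno

end P362.QA
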