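import Vale.Agent.Lib.P362.A.Samp
import Vale.Agent.Lib.P362.A.Srch
import Vale.Agent.Lib.P362.A.Good
import Vale.Agent.Lib.P362.A.IID

/-! P362, part QAlg: one round halves the candidate set. -/

namespace P362.QA

variable {V : Type} [Fintype V] [DecidableEq V] [Nonempty V]

/-- the test of `(b, ρ)` against the list `s` of samples -/
private noncomputable def roundTst {B A : Type} (leaf : A → B → DT V Bool) {n : ℕ}
    (s : Fin n → Option B) (b : B) (ρ : A) (x : V → Bool) : Bool :=
  @decide (∀ i, ∀ j, s i = some j → (j = b ∨ (leaf ρ j).eval x = true))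
    (Classical.propDecidable _)

private theorem roundTst_iff {B A : Type} (leaf : A → B → DT V Bool) {n : ℕ}
    (s : Fin n → Option B) (b : B) (ρ : A) (x : V → Bool) : roundTst leaf s b ρ x = true ↔
      ∀ i, ∀ j, s i = some j → (j = b ∨ (leaf ρ j).eval x = true) :=
  @decide_eq_true_iff _ (Classical.propDecidable _)

private theorem real_roundTst (F : Facts) {B A : Type} [DecidableEq B]
    (leaf : A → B → DT V Bool) {p n : ℕ} (hp : ∀ ρ j, (leaf ρ j).depth ≤ p)
    (s : Fin n → Option B) (b : B) (ρ : A) :
    Realizable (n * p) (det (roundTst leaf s b ρ)) := by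
  have h := real_test F leaf hp s b ρ
  refine (congrArg (fun g : (V → Bool) → Bool => Realizable (n * p) (det g))
    (funext fun x => ?_)).mp h
  exact decide_eq_decide.2 Iff.rfl

/-- `n` samples from `cand leaf rs x` (`samp`, `iid`, `real_inS`), then `srch` with the test
`real_test`. With `b0, ρ0` as below: `b0 ∈ cand`, so `samp` gives the hypotheses of
`good_samples` (with `ι = B × A`, `T (b, ρ) = insert b {j | leaf ρ j true}`); for every sample
list `(b0, ρ0)` passes the test; for a good sample list every `ρ` passing the test with some `b`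
satisfies the conclusion by `halve`; `fail_bind`. -/
theorem round (F : Facts) {B A : Type} [Fintype B] [DecidableEq B] [Nonempty B] [Fintype A]
    [DecidableEq A] [Nonempty A] (leaf : A → B → DT V Bool) {dec : B → (V → Bool) → A → ℝ}
    {qd p : ℕ} (hp : ∀ ρ j, (leaf ρ j).depth ≤ p) (hd : ∀ b, Realizable qd (dec b)) {t : ℕ}
    (rs : Fin t → A) (n K : ℕ) :
    ∃ ν : (V → Bool) → A → ℝ,
      Realizable (n * (9 * (Nat.sqrt (Fintype.card B) + 1) * (t * p)) +
        K * (5 * (Nat.sqrt (Fintype.card B) + 1) * (qd + n * p))) ν ∧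
      ∀ x b0 ρ0, 1 / 2 ≤ dec b0 x ρ0 → (∀ ρ, (leaf ρ b0).eval x = false) →
        (∀ j, j ≠ b0 → (leaf ρ0 j).eval x = true) → 4 ≤ (cand leaf rs x).card →
        pr (ν x) (fun ρ => ¬ 2 * ((cand leaf rs x).filter
          (fun j => (leaf ρ j).eval x = false)).card ≤ (cand leaf rs x).card) ≤
          (Fintype.card B * Fintype.card A : ℝ) * (7 / 8) ^ n + (3 / 4) ^ K := by
  obtain ⟨ν1, hν1, h1⟩ := samp F (g := fun j => inS leaf rs j)
    (fun j => real_inS F leaf hp rs j)
  have hs := fun s : Fin n → Option B => srch F hd (g := roundTst leaf s)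
    (fun b ρ => real_roundTst F leaf hp s b ρ) K
  choose ν2 hν2 h2 using hs
  refine ⟨fun x ρ => ∑ s : Fin n → Option B, (∏ i, ν1 x (s i)) * ν2 s x ρ,
    F.bind V (Fin n → Option B) A _ _ _ _ (iid F hν1 n) hν2, ?_⟩
  intro x b0 ρ0 hdec hb0 hρ0 h4
  have hD1 : IsD (ν1 x) := real_isD hν1 x
  obtain ⟨⟨c, hc0, hc⟩, hn⟩ := h1 x
  have hmem : ∀ j, j ∈ cand leaf rs x ↔ inS leaf rs j x = true := fun j => by
    rw [cand, Finset.mem_filter]
    exact ⟨fun h => h.2, fun h => ⟨Finset.mem_univ _, h⟩⟩
  have hcS : ∀ j, ν1 x (some j) = if j ∈ cand leaf rs x then c else 0 := by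
    intro j
    rw [hc j]
    by_cases h : inS leaf rs j x = true
    · rw [if_pos h, if_pos ((hmem j).2 h)]
    · rw [if_neg h, if_neg (fun h' => h ((hmem j).1 h'))]
  have hnone : ν1 x none ≤ 1 / 2 := by
    refine hn ⟨b0, ?_⟩
    change decide (∀ i, (leaf (rs i) b0).eval x = false) = true
    exact decide_eq_true fun i => hb0 _
  set T : B × A → Finset B := fun y =>
    insert y.1 (Finset.univ.filter fun j => (leaf y.2 j).eval x = true) with hT
  have hgood := good_samples (cand leaf rs x) hD1 hcS hnone T n
  rw [Fintype.card_prod] at hgood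
  push_cast at hgood
  refine fail_bind (isD_prod hD1 n) (fun s => real_isD (hν2 s) x)
    (fun s => ¬ ∃ i, 4 * (cand leaf rs x ∩ T i).card < 3 * (cand leaf rs x).card ∧
      ∀ a j, s a = some j → j ∈ T i) _ ?_ (by positivity) ?_
  · refine le_trans (le_of_eq ?_) hgood
    congr 1
    funext s
    rw [not_not]
  · intro s hP
    have h3 := h2 s x ⟨b0, ρ0, ?_, hdec⟩
    · refine le_trans (pr_mono (real_isD (hν2 s) x).1 ?_) h3
      rintro ρ hQ ⟨b, hb⟩
      apply hQ
      have hb' : ∀ i, ∀ j, s i = some j → (j = b ∨ (leaf ρ j).eval x = true) :=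
        (roundTst_iff leaf s b ρ x).1 hb
      have h5 : 3 * (cand leaf rs x).card ≤ 4 * (cand leaf rs x ∩
          insert b (Finset.univ.filter fun j => (leaf ρ j).eval x = true)).card := by
        by_contra hcon
        push Not at hcon
        refine hP ⟨(b, ρ), hcon, fun a j haj => ?_⟩
        change j ∈ insert b (Finset.univ.filter fun j => (leaf ρ j).eval x = true)
        rw [Finset.mem_insert, Finset.mem_filter]
        rcases hb' a j haj with h6 | h6
        · exact Or.inl h6
        · exact Or.inr ⟨Finset.mem_univ _, h6⟩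
      have h6 := halve (cand leaf rs x)
        (Finset.univ.filter fun j => (leaf ρ j).eval x = true) b h4 h5
      have h7 : (cand leaf rs x).filter (fun j => (leaf ρ j).eval x = false) =
          cand leaf rs x \ (Finset.univ.filter fun j => (leaf ρ j).eval x = true) := by
        ext j
        rw [Finset.mem_filter, Finset.mem_sdiff, Finset.mem_filter]
        refine and_congr_right fun _ => ?_
        constructor
        · rintro h8 ⟨_, h9⟩
          rw [h8] at h9
          exact absurd h9 (by decide)
        · intro h8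
          by_contra h9
          exact h8 ⟨Finset.mem_univ _, by simpa using h9⟩
      rw [h7]
      exact h6
    · refine (roundTst_iff leaf s b0 ρ0 x).2 fun i j _ => ?_
      by_cases h : j = b0
      · exact Or.inl h
      · exact Or.inr (hρ0 j h)

end P362.QA
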