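import Vale.Agent.Lib.P362.A.Rep

/-! P362, part QAlg: uniform sampling from a set given by a membership test. -/

namespace P362.QA

variable {V : Type} [Fintype V] [DecidableEq V] [Nonempty V]

omit [Nonempty V] in
private theorem samp_mono {R : Type} [DecidableEq R] {q q' : ℕ} {μ : (V → Bool) → R → ℝ}
    (h : Realizable q μ) (hq : q ≤ q') : Realizable q' μ := by
  obtain ⟨T, hT, A, hA⟩ := h
  exact ⟨T, hT.trans hq, A, hA⟩

private theorem samp_base (F : Facts) {B : Type} [Fintype B] [DecidableEq B] [Nonempty B] {q : ℕ}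
    {g : B → (V → Bool) → Bool} (hg : ∀ j, Realizable q (det (g j))) :
    Realizable q (fun (x : V → Bool) (s : B × Bool) =>
      1 / (Fintype.card B : ℝ) * (if g s.1 x = s.2 then 1 else 0)) := by
  have hN : (0 : ℝ) < Fintype.card B := by exact_mod_cast Fintype.card_pos
  have hu : IsD (fun _ : B => 1 / (Fintype.card B : ℝ)) := by
    refine ⟨fun _ => by positivity, ?_⟩
    rw [Finset.sum_const, Finset.card_univ, nsmul_eq_mul]
    field_simp
  have h1 := real_pure (V := V) F (fun _ : B => 1 / (Fintype.card B : ℝ)) hu 0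
  have h2 := F.bind V B (B × Bool) 0 q _ _ h1 (fun j => real_map F (hg j) (fun r => (j, r)))
  rw [zero_add] at h2
  have h3 : (fun (x : V → Bool) (s : B × Bool) => ∑ j : B, 1 / (Fintype.card B : ℝ) *
      ∑ r : Bool, det (g j) x r * (if (j, r) = s then 1 else 0)) =
      fun (x : V → Bool) (s : B × Bool) =>
        1 / (Fintype.card B : ℝ) * (if g s.1 x = s.2 then 1 else 0) := by
    funext x s
    obtain ⟨j, r⟩ := s
    rw [← Finset.mul_sum, Finset.sum_eq_single j, Finset.sum_eq_single r]
    · simp [det]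
    · intro r' _ hr
      rw [if_neg (by simpa using hr), mul_zero]
    · intro h
      exact absurd (Finset.mem_univ r) h
    · intro j' _ hj
      refine Finset.sum_eq_zero fun r' _ => ?_
      rw [if_neg (by simp [hj]), mul_zero]
    · intro h
      exact absurd (Finset.mem_univ j) h
  rw [← h3]
  exact h2

/-- Base kernel on `B × Bool`: `j` uniform (`real_pure`), then the test: it has value
`(1 / card B) * (if g j x = r then 1 else 0)` at `(j, r)`. Apply `rep` with `G (j, r) = r`,
`J = Nat.sqrt (card B) + 1` (so `J ^ 2 ≥ card B`) and `K = 3` (`(3/4)^3 ≤ 1/2`), then map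
`some (j, r) ↦ some j`, `none ↦ none`. Cost `3 * ((2 J + 1) q) ≤ 9 J q`. -/
theorem samp (F : Facts) {B : Type} [Fintype B] [DecidableEq B] [Nonempty B] {q : ℕ}
    {g : B → (V → Bool) → Bool} (hg : ∀ j, Realizable q (det (g j))) :
    ∃ ν : (V → Bool) → Option B → ℝ, Realizable (9 * (Nat.sqrt (Fintype.card B) + 1) * q) ν ∧
      ∀ x, (∃ c : ℝ, 0 ≤ c ∧ ∀ j, ν x (some j) = if g j x = true then c else 0) ∧
        ((∃ j, g j x = true) → ν x none ≤ 1 / 2) := by
  have hN : (0 : ℝ) < Fintype.card B := by exact_mod_cast Fintype.card_pos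
  obtain ⟨ν₁, hν₁, h⟩ := rep F (samp_base F hg) (fun s : B × Bool => s.2)
    (J := Nat.sqrt (Fintype.card B) + 1) (by omega) 3
  refine ⟨fun x s => ∑ o, ν₁ x o * (if Option.map Prod.fst o = s then 1 else 0),
    samp_mono (real_map F hν₁ (Option.map Prod.fst)) ?_, fun x => ⟨?_, ?_⟩⟩
  · have h1 : 2 * (Nat.sqrt (Fintype.card B) + 1) + 1 ≤ 3 * (Nat.sqrt (Fintype.card B) + 1) := by
      omega
    calc 3 * ((2 * (Nat.sqrt (Fintype.card B) + 1) + 1) * q)
        ≤ 3 * ((3 * (Nat.sqrt (Fintype.card B) + 1)) * q) :=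
          Nat.mul_le_mul_left _ (Nat.mul_le_mul_right _ h1)
      _ = 9 * (Nat.sqrt (Fintype.card B) + 1) * q := by ring
  · obtain ⟨⟨c, hc, hcs⟩, -⟩ := h x
    refine ⟨c * (1 / Fintype.card B), by positivity, fun j => ?_⟩
    beta_reduce
    rw [Fintype.sum_option]
    have h1 : ∀ s : B × Bool, ν₁ x (some s) *
        (if Option.map Prod.fst (some s) = some j then (1 : ℝ) else 0) =
        if s = (j, true) then (if g j x = true then c * (1 / Fintype.card B) else 0) else 0 := by
      rintro ⟨j', r⟩
      rw [hcs]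
      simp only [Option.map_some, Option.some.injEq]
      by_cases hj : j' = j
      · subst hj
        cases r
        · simp
        · by_cases hg' : g j' x = true
          · simp [hg']
          · simp [hg']
      · rw [if_neg hj, mul_zero, if_neg (by simp [hj])]
    rw [Finset.sum_congr rfl fun s _ => h1 s, Finset.sum_ite_eq' Finset.univ (j, true),
      if_pos (Finset.mem_univ _)]
    simp
  · rintro ⟨j, hj⟩
    obtain ⟨⟨c, hc, hcs⟩, h2⟩ := h x
    beta_reduce
    rw [Fintype.sum_option]
    have h1 : ∑ s : B × Bool, ν₁ x (some s) *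
        (if Option.map Prod.fst (some s) = (none : Option B) then (1 : ℝ) else 0) = 0 :=
      Finset.sum_eq_zero fun s _ => by simp
    rw [h1, add_zero, Option.map_none, if_pos rfl, mul_one]
    refine (h2 ?_).trans (by norm_num)
    have h3 : (Fintype.card B : ℝ) ≤ ((Nat.sqrt (Fintype.card B) + 1 : ℕ) : ℝ) ^ 2 := by
      have := Nat.lt_succ_sqrt (Fintype.card B)
      have h4 : Fintype.card B ≤ (Nat.sqrt (Fintype.card B) + 1) ^ 2 := by
        rw [sq]
        exact this.le
      exact_mod_cast h4
    have h4 : (1 / (Fintype.card B : ℝ)) ≤ ∑ s : B × Bool, (if s.2 = true then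
        1 / (Fintype.card B : ℝ) * (if g s.1 x = s.2 then 1 else 0) else 0) := by
      have h5 := Finset.single_le_sum (f := fun s : B × Bool => (if s.2 = true then
        1 / (Fintype.card B : ℝ) * (if g s.1 x = s.2 then 1 else 0) else 0))
        (fun s _ => by split_ifs <;> positivity) (Finset.mem_univ (j, true))
      simpa [hj] using h5
    calc (1 : ℝ) = Fintype.card B * (1 / Fintype.card B) := by field_simp
      _ ≤ ((Nat.sqrt (Fintype.card B) + 1 : ℕ) : ℝ) ^ 2 * ∑ s : B × Bool, (if s.2 = true then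
        1 / (Fintype.card B : ℝ) * (if g s.1 x = s.2 then 1 else 0) else 0) :=
          mul_le_mul h3 h4 (by positivity) (by positivity)

end P362.QA
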